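import Vale.Agent.P333.E.Bridge
import Vale.Agent.P333.E.Seg
import Vale.Agent.P333.E.AlgStage
import Vale.Agent.P333.E.PF

/-!
P333, ratio below `7/3`, short proof: the properties of the strings of the remaining classes of a
minimum cycle cover, placed in a superstring, which are used in the core of the proof.
-/

set_option autoImplicit false
set_option linter.all false

namespace Vale.Agent.P333.K

open Vale.Agent.P333 Vale.Agent.P333.U Vale.Agent.P333.E Vale.Agent.P333.H368

/-- Common factors of strings of different classes are short. -/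
theorem dat_fw {ι σ : Type} [Fintype ι] [Fintype σ] [DecidableEq ι] {D : Dat ι σ} (hD : D.Ok)
    (s t : σ) (hst : D.cl s ≠ D.cl t) (z z' k : ℕ) (h1 : D.a s ≤ z) (h2 : z + k ≤ D.b s)
    (h3 : D.a t ≤ z') (h4 : z' + k ≤ D.b t) (he : ∀ j < k, D.T (z + j) = D.T (z' + j)) :
    k ≤ D.w (D.cl s) + D.w (D.cl t) := by
  by_contra hcon
  obtain ⟨q, hq⟩ := hD.occ s
  obtain ⟨q', hq'⟩ := hD.occ t
  refine hD.dist _ _ hst (conj_of_long (hD.per _).pos (hD.per _).per (hD.per _).pos (hD.per _).per
    (i := q + z) (j := q' + z') (l := k) (by omega) ?_)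
  intro j hj
  have e1 := hq.2.2 (z + j) (by omega) (by omega)
  have e2 := hq'.2.2 (z' + j) (by omega) (by omega)
  rw [Nat.add_assoc, Nat.add_assoc, ← e1, ← e2]
  exact he j hj

/-- Two strings of the same class have a common factor of length at least `o - w / 2`. -/
theorem dat_same {ι σ : Type} [Fintype ι] [Fintype σ] [DecidableEq ι] {D : Dat ι σ} (hD : D.Ok)
    (s t : σ) (hst : D.cl s = D.cl t) : ∃ z z' k, D.a s ≤ z ∧ z + k ≤ D.b s ∧ D.a t ≤ z' ∧
      z' + k ≤ D.b t ∧ (∀ j < k, D.T (z + j) = D.T (z' + j)) ∧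
      2 * D.o (D.cl s) ≤ 2 * k + D.w (D.cl s) := by
  obtain ⟨q, hq⟩ := hD.occ s
  obtain ⟨q', hq'⟩ := hD.occ t
  have l1 := hD.len1 s
  have l2 := hD.len1 t
  rw [← hst] at hq' l2
  have hw := (hD.per (D.cl s)).pos
  have hX := (hD.per (D.cl s)).per
  set X := D.X (D.cl s) with hXd
  set w := D.w (D.cl s) with hwd
  set o := D.o (D.cl s) with hod
  -- a relation between the phases
  have key : ∀ (s t : σ) (x y : ℕ), (∀ i, D.a s ≤ i → i < D.b s → D.T i = X (x + i)) →
      (∀ i, D.a t ≤ i → i < D.b t → D.T i = X (y + i)) → D.a s + o < D.b s → D.a t + o < D.b t →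
      ∀ d m m', d ≤ o → x + D.a s + d + w * m = y + D.a t + w * m' →
      ∃ z z' k, D.a s ≤ z ∧ z + k ≤ D.b s ∧ D.a t ≤ z' ∧
      z' + k ≤ D.b t ∧ (∀ j < k, D.T (z + j) = D.T (z' + j)) ∧ k = o - d := by
    intro s t x y hx hy l1 l2 d m m' hd he
    refine ⟨D.a s + d, D.a t, o - d, by omega, by omega, le_rfl, by omega, fun j hj => ?_, rfl⟩
    rw [hx _ (by omega) (by omega), hy _ (by omega) (by omega), ← pmul hX _ m, ← pmul hX (y + _) m']
    congr 1
    omega
  -- the difference of the phases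
  set A := q + D.a s with hA
  set B := q' + D.a t with hB
  obtain ⟨d, m, m', hd, he⟩ : ∃ d m m', d < w ∧ A + d + w * m = B + w * m' := by
    refine ⟨(B + w * A - A) % w, (B + w * A - A) / w, A, Nat.mod_lt _ hw, ?_⟩
    have h1 : A ≤ w * A := Nat.le_mul_of_pos_left A hw
    have := Nat.mod_add_div (B + w * A - A) w
    omega
  by_cases h2 : 2 * d ≤ w
  · by_cases h3 : d ≤ o
    · obtain ⟨z, z', k, f1, f2, f3, f4, f5, f6⟩ := key s t q q' (fun i h1 h2 => hq.2.2 i h1 h2)
        (fun i h1 h2 => hq'.2.2 i h1 h2) l1 l2 d m m' h3 he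
      exact ⟨z, z', k, f1, f2, f3, f4, f5, by omega⟩
    · exact ⟨D.a s, D.a t, 0, le_rfl, by omega, le_rfl, by omega, by simp, by omega⟩
  · by_cases h3 : w - d ≤ o
    · obtain ⟨z, z', k, f1, f2, f3, f4, f5, f6⟩ := key t s q' q (fun i h1 h2 => hq'.2.2 i h1 h2)
        (fun i h1 h2 => hq.2.2 i h1 h2) l2 l1 (w - d) (m' + 1) (m + 2) h3 (by
          show B + (w - d) + w * (m' + 1) = A + w * (m + 2)
          rw [Nat.mul_add, Nat.mul_add]
          omega)
      exact ⟨z', z, k, f3, f4, f1, f2, fun j hj => (f5 j hj).symm, by omega⟩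
    · exact ⟨D.a s, D.a t, 0, le_rfl, by omega, le_rfl, by omega, by simp, by omega⟩

section

variable {S : List (List ℕ)} {L rem : List (List (List ℕ))} {T : List ℕ}

theorem strOf_inj (hS : Sfree S) (hL : MinCover S L) {s t : SI L} (h : strOf L s = strOf L t) :
    s = t := by
  by_contra hne
  exact strOf_noinf hS hL hne (h ▸ List.infix_refl _)

/-- The word of a string does not occur inside of another string. -/
theorem dat_nosub (hS : Sfree S) (hL : MinCover S L) {a : SI L → ℕ}
    (hocc : ∀ s, OccAt (tx T) (strOf L s) (a s)) (s t : SI L) (hst : s ≠ t) (y : ℕ)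
    (h1 : a t ≤ y) (h2 : y + (strOf L s).length ≤ a t + (strOf L t).length) :
    ¬ ∀ j < (strOf L s).length, tx T (a s + j) = tx T (y + j) := by
  intro h
  refine strOf_noinf hS hL hst (infix_of_occ (hocc t) (b := y) (fun i hi => ?_) h1 h2)
  rw [hocc s i hi]
  exact h i hi

/-- No text made of few strings improves: form for the intervals. -/
theorem dat_lo (hS : Sfree S) (hL : MinCover S L) {S' : List (List ℕ)}
    (hSS : ∀ s ∈ S, s ∈ S') {a : SI L → ℕ}
    (hT : ∀ s, a s + (strOf L s).length ≤ T.length ∧ OccAt (tx T) (strOf L s) (a s))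
    {N D M : ℕ} (hno : NoImp S' N D M L) (Q : Finset (SI L)) (hQ : Q.card ≤ M)
    (I J : Finset (Fin L.length))
    (hI : ∀ c ∈ I, ∀ s : SI L, s.1 = c → Finset.Ico (a s) (a s + (strOf L s).length) ⊆
      Q.biUnion fun s => Finset.Ico (a s) (a s + (strOf L s).length))
    (hJ : ∀ c ∈ J, ∃ s : SI L, s.1 = c ∧ Finset.Ico (a s) (a s + (strOf L s).length) ⊆
      Q.biUnion fun s => Finset.Ico (a s) (a s + (strOf L s).length)) :
    D * ∑ c ∈ I, cycW (L.get c) + N * ∑ c ∈ J, cycO (L.get c) ≤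
      D * (Q.biUnion fun s => Finset.Ico (a s) (a s + (strOf L s).length)).card := by
  classical
  have hocc : ∀ s, OccAt (tx T) (strOf L s) (a s) := fun s => (hT s).2
  -- positions as a function of the string
  let a' : List ℕ → ℕ := fun x => if h : ∃ s : SI L, strOf L s = x then a h.choose else 0
  have ha' : ∀ s : SI L, a' (strOf L s) = a s := by
    intro s
    have h : ∃ t : SI L, strOf L t = strOf L s := ⟨s, rfl⟩
    have h2 : h.choose = s := strOf_inj hS hL h.choose_spec
    simp only [a', dif_pos h, h2]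
  set B : Finset (List ℕ) := Q.image (strOf L) with hB
  have hUn : Un a' B = Q.biUnion fun s => Finset.Ico (a s) (a s + (strOf L s).length) := by
    ext p
    simp only [Un, hB, Finset.mem_biUnion, Finset.mem_image, exists_exists_and_eq_and, ha']
  have hpos : Pos (tx T) a' B := by
    refine ⟨?_, ?_, ?_⟩
    · intro x hx
      obtain ⟨s, hs, rfl⟩ := Finset.mem_image.1 hx
      rw [ha']
      exact hocc s
    · intro x hx y hy hxy
      obtain ⟨s, hs, rfl⟩ := Finset.mem_image.1 hx
      obtain ⟨t, ht, rfl⟩ := Finset.mem_image.1 hy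
      rw [ha', ha'] at hxy
      by_contra hne
      have hst : s ≠ t := fun h => hne (by rw [h])
      rcases le_total (strOf L s).length (strOf L t).length with h | h
      · exact strOf_noinf hS hL hst (infix_of_occ (hocc t) (hocc s) hxy.ge (by omega))
      · exact strOf_noinf hS hL (Ne.symm hst) (infix_of_occ (hocc s) (hocc t) hxy.le (by omega))
    · intro x hx y hy hxy
      obtain ⟨s, hs, rfl⟩ := Finset.mem_image.1 hx
      obtain ⟨t, ht, rfl⟩ := Finset.mem_image.1 hy
      rw [ha', ha'] at *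
      by_contra hcon
      refine strOf_noinf hS hL (s := t) (t := s) ?_ (infix_of_occ (hocc s) (hocc t) hxy.le
        (by omega))
      rintro rfl
      exact lt_irrefl _ hxy
  have hBS : B ⊆ S'.toFinset := by
    intro x hx
    obtain ⟨s, hs, rfl⟩ := Finset.mem_image.1 hx
    rw [List.mem_toFinset]
    exact hSS _ (hL.perm.mem_iff.1 (List.mem_flatten.2 ⟨_, List.get_mem L s.1, strOf_mem L s⟩))
  have hG := txt_Un (P := Glue S') (S := S'.toFinset) (Z := tx T) (a := a')
    ⟨Glue.nil, fun m G s k h hs hk1 hk2 he => Glue.step h (List.mem_toFinset.1 hs) hk1 hk2 he⟩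
    B hpos hBS
  have hcard : B.card ≤ M := Finset.card_image_le.trans hQ
  have h1 := hno _ _ hcard hG
  rw [length_txt, hUn] at h1
  refine le_trans ?_ h1
  rw [gain, ← sum_get_eq]
  have hinf : ∀ s : SI L, Finset.Ico (a s) (a s + (strOf L s).length) ⊆
      (Q.biUnion fun s => Finset.Ico (a s) (a s + (strOf L s).length)) →
      strOf L s <:+: txt (tx T) (Q.biUnion fun s =>
        Finset.Ico (a s) (a s + (strOf L s).length)) := by
    intro s hs
    exact infix_txt (hocc s) hs
  have e1 : D * ∑ c ∈ I, cycW (L.get c) ≤ ∑ c : Fin L.length,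
      (if Cont (L.get c) (txt (tx T) (Q.biUnion fun s =>
        Finset.Ico (a s) (a s + (strOf L s).length))) then D * cycW (L.get c) else 0) := by
    rw [Finset.mul_sum]
    refine le_trans (Finset.sum_le_sum fun c hc => ?_)
      (Finset.sum_le_sum_of_subset (Finset.subset_univ I))
    rw [if_pos]
    intro x hx
    obtain ⟨s, hs, rfl⟩ := exists_strOf hx
    exact hinf s (hI c hc s hs)
  have e2 : N * ∑ c ∈ J, cycO (L.get c) ≤ ∑ c : Fin L.length,
      (if Tch (L.get c) (txt (tx T) (Q.biUnion fun s =>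
        Finset.Ico (a s) (a s + (strOf L s).length))) then N * cycO (L.get c) else 0) := by
    rw [Finset.mul_sum]
    refine le_trans (Finset.sum_le_sum fun c hc => ?_)
      (Finset.sum_le_sum_of_subset (Finset.subset_univ J))
    rw [if_pos]
    obtain ⟨s, hs, h2⟩ := hJ c hc
    exact ⟨strOf L s, hs ▸ strOf_mem L s, hinf s h2⟩
  calc _ ≤ _ := Nat.add_le_add e1 e2
    _ = _ := by rw [← Finset.sum_add_distrib]

/-- **The bridge of the short proof.** -/
theorem exists_kdat {S : List (List ℕ)} {L rem : List (List (List ℕ))} {T : List ℕ} {N D M : ℕ}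
    (hS : Sfree S) (hL : MinCover S L) (hT : IsSuperstring S T) (hr : rem.Sublist L)
    (hno : NoImp S N D M rem) :
    ∃ E : Dat (Fin rem.length) (SI rem), E.Ok ∧ E.n = T.length ∧
      (∀ c, E.w c = cycW (rem.get c)) ∧ (∀ c, E.o c = cycO (rem.get c)) ∧
      (∀ c, ∃ s, E.cl s = c) ∧
      (∀ s t, s ≠ t → ∀ y, E.a t ≤ y → y + (E.b s - E.a s) ≤ E.b t →
        ¬ ∀ j < E.b s - E.a s, E.T (E.a s + j) = E.T (y + j)) ∧
      (∀ s t, E.cl s ≠ E.cl t → ∀ z z' k, E.a s ≤ z → z + k ≤ E.b s → E.a t ≤ z' →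
        z' + k ≤ E.b t → (∀ j < k, E.T (z + j) = E.T (z' + j)) →
        k ≤ E.w (E.cl s) + E.w (E.cl t)) ∧
      (∀ s t, E.cl s = E.cl t → ∃ z z' k, E.a s ≤ z ∧ z + k ≤ E.b s ∧ E.a t ≤ z' ∧
        z' + k ≤ E.b t ∧ (∀ j < k, E.T (z + j) = E.T (z' + j)) ∧
        2 * E.o (E.cl s) ≤ 2 * k + E.w (E.cl s)) ∧
      ∀ Q : Finset (SI rem), Q.card ≤ M → ∀ I J : Finset (Fin rem.length),
        (∀ c ∈ I, ∀ s, E.cl s = c →
          Finset.Ico (E.a s) (E.b s) ⊆ Q.biUnion fun s => Finset.Ico (E.a s) (E.b s)) →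
        (∀ c ∈ J, ∃ s, E.cl s = c ∧
          Finset.Ico (E.a s) (E.b s) ⊆ Q.biUnion fun s => Finset.Ico (E.a s) (E.b s)) →
        D * ∑ c ∈ I, E.w c + N * ∑ c ∈ J, E.o c ≤
          D * (Q.biUnion fun s => Finset.Ico (E.a s) (E.b s)).card := by
  have hS' := sfree_rem hS hL hr
  have hL' := minCover_rem hL hr
  have hmem : ∀ s ∈ rem.flatten, s ∈ S := fun s hs =>
    hL.perm.mem_iff.1 ((sublist_flatten hr).subset hs)
  have h : ∀ s : SI rem, ∃ a, a + (strOf rem s).length ≤ T.length ∧
      OccAt (tx T) (strOf rem s) a := by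
    intro s
    exact exists_occ (hT _ (hmem _ (List.mem_flatten.2 ⟨_, List.get_mem rem s.1, strOf_mem rem s⟩)))
  choose a ha using h
  have hok := datOf_ok hS' hL' ha
  refine ⟨datOf rem T a, hok, rfl, fun _ => rfl, fun _ => rfl, ?_, ?_, dat_fw hok, dat_same hok, ?_⟩
  · intro c
    obtain ⟨s, hs⟩ := List.exists_mem_of_ne_nil _ (hL'.ne _ (List.get_mem rem c))
    obtain ⟨i, hi, -⟩ := exists_strOf hs
    exact ⟨i, hi⟩
  · intro s t hst y h1 h2
    have e : (datOf rem T a).b s - (datOf rem T a).a s = (strOf rem s).length :=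
      Nat.add_sub_cancel_left _ _
    rw [e] at h2 ⊢
    exact dat_nosub hS' hL' (fun s => (ha s).2) s t hst y h1 h2
  · intro Q hQ I J hI hJ
    exact dat_lo hS' hL' hmem ha hno Q hQ I J hI hJ

end

end Vale.Agent.P333.K
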