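import Mathlib

/-!
P333, ratio below `7/3`, short proof (helper853): covering lemma for intervals, and the number of
disjoint intervals which a further interval meets.
-/

set_option autoImplicit false
set_option linter.all false

namespace Vale.Agent.P333.K

open Finset

/-- Two families of disjoint intervals cover the union. -/
theorem two_families {σ : Type*} [DecidableEq σ] (a b : σ → ℕ) :
    ∀ (n : ℕ) (P : Finset σ), P.card ≤ n →
      (∀ s ∈ P, ∀ t ∈ P, s ≠ t → a s ≤ a t → a s < a t ∧ b s < b t) →
      ∀ m ∈ P, (∀ s ∈ P, a s ≤ a m) →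
      ∃ F F' : Finset σ, F ⊆ P ∧ F' ⊆ P ∧ m ∈ F ∧ m ∉ F' ∧
        (∀ s ∈ F, ∀ t ∈ F, s ≠ t → b s ≤ a t ∨ b t ≤ a s) ∧
        (∀ s ∈ F', ∀ t ∈ F', s ≠ t → b s ≤ a t ∨ b t ≤ a s) ∧
        ∀ s ∈ P, ∀ x, a s ≤ x → x < b s → ∃ t ∈ F ∪ F', a t ≤ x ∧ x < b t := by
  intro n
  induction n with
  | zero =>
    intro P hP _ m hm
    rw [Finset.card_eq_zero.1 (Nat.le_zero.1 hP)] at hm
    exact absurd hm (notMem_empty _)
  | succ n ih =>
    intro P hP hmono m hm hmax
    have hle : ∀ s ∈ P, b s ≤ b m := by
      intro s hs
      by_cases h : s = m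
      · rw [h]
      · exact (hmono s hs m hm h (hmax s hs)).2.le
    -- the leftmost interval which meets `m`
    obtain ⟨p, hp, hpmin⟩ := exists_min_image (P.filter fun s => a m < b s ∨ s = m) a
      ⟨m, mem_filter.2 ⟨hm, Or.inr rfl⟩⟩
    rw [mem_filter] at hp
    by_cases hpm : p = m
    · subst hpm
      have hout : ∀ s ∈ P, s ≠ p → b s ≤ a p := by
        intro s hs hsp
        by_contra hcon
        have h1 := hpmin s (mem_filter.2 ⟨hs, Or.inl (by omega)⟩)
        have h2 := (hmono s hs p hm hsp (hmax s hs)).1
        omega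
      rcases (P.erase p).eq_empty_or_nonempty with h0 | hne
      · refine ⟨{p}, ∅, by simpa using hm, empty_subset _, mem_singleton_self _, notMem_empty _,
          ?_, by simp, ?_⟩
        · intro s hs t ht hst
          rw [mem_singleton] at hs ht
          exact absurd (hs.trans ht.symm) hst
        · intro s hs x h1 h2
          have : s = p := by
            by_contra h
            have : s ∈ P.erase p := mem_erase.2 ⟨h, hs⟩
            rw [h0] at this
            exact notMem_empty _ this
          subst this
          exact ⟨s, by simp, h1, h2⟩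
      · obtain ⟨m', hm', hmax'⟩ := exists_max_image (P.erase p) a hne
        obtain ⟨F, F', h1, h2, h3, h4, h5, h6, h7⟩ := ih (P.erase p)
          (by rw [card_erase_of_mem hm]; omega)
          (fun s hs t ht => hmono s (mem_of_mem_erase hs) t (mem_of_mem_erase ht)) m' hm' hmax'
        have hpF : ∀ s ∈ F, s ≠ p ∧ b s ≤ a p := fun s hs =>
          ⟨ne_of_mem_erase (h1 hs), hout s (mem_of_mem_erase (h1 hs)) (ne_of_mem_erase (h1 hs))⟩
        refine ⟨insert p F, F', ?_, h2.trans (erase_subset _ _), mem_insert_self _ _,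
          fun h => ne_of_mem_erase (h2 h) rfl, ?_, h6, ?_⟩
        · intro s hs
          rcases mem_insert.1 hs with rfl | hs
          · exact hm
          · exact mem_of_mem_erase (h1 hs)
        · intro s hs t ht hst
          rcases mem_insert.1 hs with h | hs <;> rcases mem_insert.1 ht with h' | ht
          · exact absurd (h.trans h'.symm) hst
          · right; rw [h]; exact (hpF t ht).2
          · left; rw [h']; exact (hpF s hs).2
          · exact h5 s hs t ht hst
        · intro s hs x hx1 hx2
          by_cases hsp : s = p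
          · subst hsp
            exact ⟨s, mem_union_left _ (mem_insert_self _ _), hx1, hx2⟩
          · obtain ⟨t, ht, hx⟩ := h7 s (mem_erase.2 ⟨hsp, hs⟩) x hx1 hx2
            refine ⟨t, ?_, hx⟩
            rcases mem_union.1 ht with ht | ht
            · exact mem_union_left _ (mem_insert_of_mem ht)
            · exact mem_union_right _ ht
    · have hpb : a m < b p := by
        rcases hp.2 with h | h
        · exact h
        · exact absurd h hpm
      have hpa : a p < a m := (hmono p hp.1 m hm hpm (hmax p hp.1)).1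
      set P' := P.filter fun s => a s ≤ a p with hP'
      have hpP' : p ∈ P' := mem_filter.2 ⟨hp.1, le_rfl⟩
      have hmP' : m ∉ P' := by
        intro h
        have := (mem_filter.1 h).2
        omega
      have hsub : P' ⊆ P := filter_subset _ _
      have hcard : P'.card ≤ n := by
        have : P'.card < P.card := card_lt_card ⟨hsub, fun h => hmP' (h hm)⟩
        omega
      obtain ⟨F, F', h1, h2, h3, h4, h5, h6, h7⟩ := ih P' hcard
        (fun s hs t ht => hmono s (hsub hs) t (hsub ht)) p hpP' (fun s hs => (mem_filter.1 hs).2)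
      have hF' : ∀ s ∈ F', b s ≤ a m := by
        intro s hs
        have hsP := mem_filter.1 (h2 hs)
        have hsp : s ≠ p := fun h => h4 (h ▸ hs)
        have h8 := (hmono s hsP.1 p hp.1 hsp hsP.2).1
        by_contra hcon
        have h9 := hpmin s (mem_filter.2 ⟨hsP.1, Or.inl (by omega)⟩)
        omega
      refine ⟨insert m F', F, ?_, h1.trans hsub, mem_insert_self _ _, fun h => hmP' (h1 h),
        ?_, h5, ?_⟩
      · intro s hs
        rcases mem_insert.1 hs with rfl | hs
        · exact hm
        · exact hsub (h2 hs)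
      · intro s hs t ht hst
        rcases mem_insert.1 hs with h | hs <;> rcases mem_insert.1 ht with h' | ht
        · exact absurd (h.trans h'.symm) hst
        · right; rw [h]; exact hF' t ht
        · left; rw [h']; exact hF' s hs
        · exact h6 s hs t ht hst
      · intro s hs x hx1 hx2
        by_cases hsp : a s ≤ a p
        · obtain ⟨t, ht, hx⟩ := h7 s (mem_filter.2 ⟨hs, hsp⟩) x hx1 hx2
          refine ⟨t, ?_, hx⟩
          rcases mem_union.1 ht with ht | ht
          · exact mem_union_right _ ht
          · exact mem_union_left _ (mem_insert_of_mem ht)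
        · have hb := hle s hs
          by_cases hx : x < b p
          · exact ⟨p, mem_union_right _ h3, by omega, hx⟩
          · exact ⟨m, mem_union_left _ (mem_insert_self _ _), by omega, by omega⟩

/-- A disjoint subfamily of at least half of the length of the union. -/
theorem exists_half {σ : Type*} [DecidableEq σ] (a b : σ → ℕ) (P : Finset σ)
    (hmono : ∀ s ∈ P, ∀ t ∈ P, s ≠ t → a s ≤ a t → a s < a t ∧ b s < b t) :
    ∃ F ⊆ P, (∀ s ∈ F, ∀ t ∈ F, s ≠ t → b s ≤ a t ∨ b t ≤ a s) ∧
      (P.biUnion fun s => Ico (a s) (b s)).card ≤ 2 * ∑ s ∈ F, (b s - a s) := by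
  rcases P.eq_empty_or_nonempty with rfl | hne
  · exact ⟨∅, by simp, by simp, by simp⟩
  obtain ⟨m, hm, hmax⟩ := exists_max_image P a hne
  obtain ⟨F, F', h1, h2, -, -, h5, h6, h7⟩ := two_families a b P.card P le_rfl hmono m hm hmax
  have hc : ∀ G : Finset σ, (G.biUnion fun s => Ico (a s) (b s)).card ≤
      ∑ s ∈ G, (b s - a s) := by
    intro G
    refine card_biUnion_le.trans (le_of_eq (sum_congr rfl fun s _ => ?_))
    rw [Nat.card_Ico]
  have hsub : (P.biUnion fun s => Ico (a s) (b s)) ⊆
      (F.biUnion fun s => Ico (a s) (b s)) ∪ (F'.biUnion fun s => Ico (a s) (b s)) := by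
    intro x hx
    obtain ⟨s, hs, hx⟩ := mem_biUnion.1 hx
    rw [mem_Ico] at hx
    obtain ⟨t, ht, hx⟩ := h7 s hs x hx.1 hx.2
    rcases mem_union.1 ht with ht | ht
    · exact mem_union_left _ (mem_biUnion.2 ⟨t, ht, mem_Ico.2 hx⟩)
    · exact mem_union_right _ (mem_biUnion.2 ⟨t, ht, mem_Ico.2 hx⟩)
  have h8 := (card_le_card hsub).trans (card_union_le _ _)
  have h9 := hc F
  have h10 := hc F'
  rcases le_total (∑ s ∈ F, (b s - a s)) (∑ s ∈ F', (b s - a s)) with h | h
  · exact ⟨F', h2, h6, by omega⟩
  · exact ⟨F, h1, h5, by omega⟩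

/-- An interval meets at most two of some disjoint intervals, none of which is inside of it. -/
theorem card_meets {σ : Type*} [DecidableEq σ] (a b : σ → ℕ) (F : Finset σ) (x y : ℕ)
    (hd : ∀ s ∈ F, ∀ t ∈ F, s ≠ t → b s ≤ a t ∨ b t ≤ a s)
    (hn : ∀ s ∈ F, a s < x ∨ y < b s) :
    (F.filter fun s => x < b s ∧ a s < y).card ≤ 2 := by
  have hsub : (F.filter fun s => x < b s ∧ a s < y) ⊆
      (F.filter fun s => a s < x ∧ x < b s) ∪ (F.filter fun s => a s < y ∧ y < b s) := by
    intro s hs
    rw [mem_filter] at hs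
    rw [mem_union, mem_filter, mem_filter]
    rcases hn s hs.1 with h | h
    · exact Or.inl ⟨hs.1, h, hs.2.1⟩
    · exact Or.inr ⟨hs.1, hs.2.2, h⟩
  have h1 : ∀ z, (F.filter fun s => a s < z ∧ z < b s).card ≤ 1 := by
    intro z
    rw [card_le_one]
    intro s hs t ht
    rw [mem_filter] at hs ht
    by_contra hst
    have := hd s hs.1 t ht.1 hst
    omega
  have := (card_le_card hsub).trans (card_union_le _ _)
  have := h1 x
  have := h1 y
  omega

end Vale.Agent.P333.K
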