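import Mathlib

/-!
P333, ratio below `7/3`, short proof (helper853), step (1): the marks (first and last strings of the
classes) are divided into segments of at most `q + 1` marks; the hulls of the segments have total
length at most `n + 8 W / q`.
-/

set_option autoImplicit false
set_option linter.all false

namespace Vale.Agent.P333.K

open Finset

section Seq

variable {ι : Type*} [DecidableEq ι] (A B : ℕ → ℕ) (cl : ℕ → ι) (q r : ℕ)

/-- There is a cut between the marks `i` and `i + 1`. -/
def cutP (i : ℕ) : Prop :=
  B i ≤ A (i + 1) ∨ (i % q = r ∧ cl i ≠ cl (i + 1)) ∨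
    (1 ≤ i ∧ (i - 1) % q = r ∧ cl (i - 1) = cl i)

open Classical in
/-- Number of the segment. -/
noncomputable def segN (i : ℕ) : ℕ := ((range i).filter fun j => cutP A B cl q r j).card

variable {A B cl q r}

theorem segN_zero : segN A B cl q r 0 = 0 := by simp [segN]

theorem segN_cut {i : ℕ} (h : cutP A B cl q r i) :
    segN A B cl q r (i + 1) = segN A B cl q r i + 1 := by
  classical
  unfold segN
  rw [range_add_one, filter_insert, if_pos h, card_insert_of_notMem (by simp)]

theorem segN_uncut {i : ℕ} (h : ¬ cutP A B cl q r i) :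
    segN A B cl q r (i + 1) = segN A B cl q r i := by
  classical
  unfold segN
  rw [range_add_one, filter_insert, if_neg h]

theorem segN_mono {i j : ℕ} (h : i ≤ j) : segN A B cl q r i ≤ segN A B cl q r j := by
  classical
  unfold segN
  exact card_le_card (filter_subset_filter _ (range_subset_range.2 h))

theorem uncut_of_eq {i j l : ℕ} (h : segN A B cl q r i = segN A B cl q r j) (h1 : i ≤ l)
    (h2 : l < j) : ¬ cutP A B cl q r l := by
  intro hc
  have e1 := segN_cut hc
  have e2 := segN_mono (A := A) (B := B) (cl := cl) (q := q) (r := r) h1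
  have e3 := segN_mono (A := A) (B := B) (cl := cl) (q := q) (r := r) (show l + 1 ≤ j by omega)
  omega

/-- The segments are short. -/
theorem seg_short (hq : 0 < q) (hr : r < q) {i j : ℕ} (hij : i ≤ j)
    (h : segN A B cl q r i = segN A B cl q r j) : j ≤ i + q := by
  by_contra hcon
  -- a link with the residue `r`
  obtain ⟨l, hl1, hl2, hl3⟩ : ∃ l, i ≤ l ∧ l < i + q ∧ l % q = r := by
    refine ⟨i + (r + q - i % q) % q, by omega, ?_, ?_⟩
    · have := Nat.mod_lt (r + q - i % q) hq
      omega
    · have h1 := Nat.mod_lt i hq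
      rw [Nat.add_mod_mod]
      have h2 : i + (r + q - i % q) = r + q + q * (i / q) := by
        have := Nat.mod_add_div i q
        omega
      rw [h2, Nat.add_mul_mod_self_left, Nat.add_mod_right, Nat.mod_eq_of_lt hr]
  have hu := uncut_of_eq h hl1 (by omega)
  have hu' := uncut_of_eq h (show i ≤ l + 1 by omega) (by omega)
  by_cases hc : cl l = cl (l + 1)
  · exact hu' (Or.inr (Or.inr ⟨by omega, by simpa using hl3, by simpa using hc⟩))
  · exact hu (Or.inr (Or.inl ⟨hl3, hc⟩))

/-- Inside of a segment consecutive marks overlap. -/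
theorem seg_overlap {i j l : ℕ} (h : segN A B cl q r i = segN A B cl q r j) (h1 : i ≤ l)
    (h2 : l < j) : A (l + 1) < B l := by
  have := uncut_of_eq h h1 h2
  unfold cutP at this
  omega

/-- The hull of a part of a segment is covered by its marks. -/
theorem seg_hull {i j : ℕ} (h : segN A B cl q r i = segN A B cl q r j) (hij : i ≤ j) :
    ∀ t, A i ≤ t → t < B j → ∃ l, i ≤ l ∧ l ≤ j ∧ A l ≤ t ∧ t < B l := by
  intro t h1 h2
  -- the last mark starting not after `t`
  classical
  have hex : ∃ l, i ≤ l ∧ l ≤ j ∧ A l ≤ t ∧ ∀ l', l < l' → l' ≤ j → t < A l' := by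
    have hfin := Nat.findGreatest_spec (P := fun l => i ≤ l ∧ A l ≤ t) hij ⟨le_rfl, h1⟩
    refine ⟨Nat.findGreatest (fun l => i ≤ l ∧ A l ≤ t) j, hfin.1, Nat.findGreatest_le j, hfin.2,
      fun l' hl' hj' => ?_⟩
    have := Nat.findGreatest_is_greatest hl' hj'
    simp only [not_and, not_le] at this
    exact this (by omega)
  obtain ⟨l, hl1, hl2, hl3, hl4⟩ := hex
  refine ⟨l, hl1, hl2, hl3, ?_⟩
  rcases Nat.lt_or_ge l j with hlt | hge
  · have h3 := hl4 (l + 1) (by omega) (by omega)
    have h4 := seg_overlap h hl1 hlt
    omega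
  · have : l = j := by omega
    rw [this]
    exact h2

open Classical in
/-- Cost of the cuts. -/
noncomputable def costN (A B : ℕ → ℕ) (cl : ℕ → ι) (q r K : ℕ) : ℕ :=
  ∑ i ∈ range K, if cutP A B cl q r i then B i - A (i + 1) else 0

open Classical in
/-- The total length of the hulls. -/
theorem sum_hull (K n : ℕ) (hA : ∀ i, i + 1 < K → A i ≤ A (i + 1))
    (hB : ∀ i, i + 1 < K → B i ≤ B (i + 1)) (hAB : ∀ i < K, A i ≤ B i) (hn : ∀ i < K, B i ≤ n) :
    ∑ k ∈ (range K).image (segN A B cl q r),
      (((range K).filter fun i => segN A B cl q r i = k).biUnion fun i => Ico (A i) (B i)).card ≤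
      n + costN A B cl q r (K - 1) := by
  rcases Nat.eq_zero_or_pos K with rfl | hK
  · simp
  suffices h : ∀ j < K, ∑ k ∈ (range (j + 1)).image (segN A B cl q r),
      (((range (j + 1)).filter fun i => segN A B cl q r i = k).biUnion
        fun i => Ico (A i) (B i)).card ≤ B j + costN A B cl q r j by
    obtain ⟨j, rfl⟩ : ∃ j, K = j + 1 := ⟨K - 1, by omega⟩
    have := h j (by omega)
    have h2 := hn j (by omega)
    simp only [Nat.add_sub_cancel]
    omega
  intro j
  induction j with
  | zero =>
    intro _
    have e : (range (0 + 1)).image (segN A B cl q r) = {segN A B cl q r 0} := by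
      simp
    rw [e, sum_singleton]
    have e2 : ((range (0 + 1)).filter fun i => segN A B cl q r i = segN A B cl q r 0) = {0} := by
      simp
    rw [e2, singleton_biUnion, Nat.card_Ico]
    omega
  | succ j ih =>
    intro hj
    have hih := ih (by omega)
    have hcost : costN A B cl q r (j + 1) = costN A B cl q r j +
        if cutP A B cl q r j then B j - A (j + 1) else 0 := by
      unfold costN
      rw [sum_range_succ]
    rw [hcost]
    have hAj := hAB (j + 1) hj
    have hBj := hB j hj
    have hle : ∀ i ≤ j, B i ≤ B j := by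
      intro i hi
      have : ∀ d, i + d ≤ j → B i ≤ B (i + d) := by
        intro d
        induction d with
        | zero => intro _; exact le_rfl
        | succ d ihd =>
          intro hd
          exact (ihd (by omega)).trans (hB (i + d) (by omega))
      have h := this (j - i) (by omega)
      rwa [show i + (j - i) = j by omega] at h
    by_cases hc : cutP A B cl q r j
    · -- a new segment
      rw [if_pos hc]
      have hs := segN_cut hc
      have hlt : ∀ i ∈ range (j + 1), segN A B cl q r i < segN A B cl q r (j + 1) := by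
        intro i hi
        have := segN_mono (A := A) (B := B) (cl := cl) (q := q) (r := r)
          (show i ≤ j by have := mem_range.1 hi; omega)
        omega
      have hnot : segN A B cl q r (j + 1) ∉ (range (j + 1)).image (segN A B cl q r) := by
        intro h
        obtain ⟨i, hi, he⟩ := mem_image.1 h
        have := hlt i hi
        omega
      rw [range_add_one (n := j + 1), image_insert, sum_insert hnot]
      have e1 : ((insert (j + 1) (range (j + 1))).filter
          fun i => segN A B cl q r i = segN A B cl q r (j + 1)) = {j + 1} := by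
        rw [filter_insert, if_pos rfl]
        have : ((range (j + 1)).filter
            fun i => segN A B cl q r i = segN A B cl q r (j + 1)) = ∅ := by
          rw [filter_eq_empty_iff]
          intro i hi he
          have := hlt i hi
          omega
        rw [this]
        rfl
      rw [e1, singleton_biUnion, Nat.card_Ico]
      have e2 : ∑ k ∈ (range (j + 1)).image (segN A B cl q r),
          (((insert (j + 1) (range (j + 1))).filter
            fun i => segN A B cl q r i = k).biUnion fun i => Ico (A i) (B i)).card =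
          ∑ k ∈ (range (j + 1)).image (segN A B cl q r),
          (((range (j + 1)).filter
            fun i => segN A B cl q r i = k).biUnion fun i => Ico (A i) (B i)).card := by
        refine sum_congr rfl fun k hk => ?_
        rw [filter_insert, if_neg]
        rintro rfl
        exact hnot hk
      rw [e2]
      omega
    · -- the same segment
      rw [if_neg hc]
      have hs := segN_uncut hc
      have hmem : segN A B cl q r (j + 1) ∈ (range (j + 1)).image (segN A B cl q r) :=
        mem_image.2 ⟨j, by simp, hs.symm⟩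
      rw [range_add_one (n := j + 1), image_insert, insert_eq_of_mem hmem,
        ← add_sum_erase _ _ hmem]
      rw [← add_sum_erase _ _ hmem] at hih
      have e2 : ∑ k ∈ ((range (j + 1)).image (segN A B cl q r)).erase (segN A B cl q r (j + 1)),
          (((insert (j + 1) (range (j + 1))).filter
            fun i => segN A B cl q r i = k).biUnion fun i => Ico (A i) (B i)).card =
          ∑ k ∈ ((range (j + 1)).image (segN A B cl q r)).erase (segN A B cl q r (j + 1)),
          (((range (j + 1)).filter
            fun i => segN A B cl q r i = k).biUnion fun i => Ico (A i) (B i)).card := by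
        refine sum_congr rfl fun k hk => ?_
        rw [filter_insert, if_neg]
        rintro rfl
        exact (mem_erase.1 hk).1 rfl
      rw [e2]
      have e3 : (((insert (j + 1) (range (j + 1))).filter
          fun i => segN A B cl q r i = segN A B cl q r (j + 1)).biUnion
            fun i => Ico (A i) (B i)).card ≤
          (((range (j + 1)).filter
          fun i => segN A B cl q r i = segN A B cl q r (j + 1)).biUnion
            fun i => Ico (A i) (B i)).card + (B (j + 1) - B j) := by
        rw [filter_insert, if_pos rfl, biUnion_insert]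
        have hAB' : A (j + 1) < B j := by
          unfold cutP at hc
          omega
        have hsub : Ico (A (j + 1)) (B (j + 1)) ∪ (((range (j + 1)).filter
            fun i => segN A B cl q r i = segN A B cl q r (j + 1)).biUnion
            fun i => Ico (A i) (B i)) ⊆ (((range (j + 1)).filter
            fun i => segN A B cl q r i = segN A B cl q r (j + 1)).biUnion
            fun i => Ico (A i) (B i)) ∪ Ico (B j) (B (j + 1)) := by
          intro t ht
          rcases mem_union.1 ht with ht | ht
          · rw [mem_Ico] at ht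
            by_cases h1 : t < B j
            · refine mem_union_left _ (mem_biUnion.2 ⟨j, ?_, ?_⟩)
              · exact mem_filter.2 ⟨by simp, hs.symm⟩
              · rw [mem_Ico]
                exact ⟨(hA j hj).trans ht.1, h1⟩
            · exact mem_union_right _ (mem_Ico.2 ⟨by omega, ht.2⟩)
          · exact mem_union_left _ ht
        refine (card_le_card hsub).trans ((card_union_le _ _).trans ?_)
        rw [Nat.card_Ico]
      omega

/-- The average of the costs over the residues. -/
theorem sum_cost (hq : 0 < q) (w : ι → ℕ) (K : ℕ)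
    (hov : ∀ i, i + 1 < K → cl i ≠ cl (i + 1) → B i ≤ A (i + 1) + (w (cl i) + w (cl (i + 1))))
    (h3 : ∀ i, i + 2 < K → cl i = cl (i + 1) → cl (i + 1) ≠ cl (i + 2)) :
    ∑ r ∈ range q, costN A B cl q r (K - 1) ≤ 4 * ∑ i ∈ range K, w (cl i) := by
  classical
  unfold costN
  rw [sum_comm]
  have hone : ∀ i ∈ range (K - 1),
      ∑ r ∈ range q, (if cutP A B cl q r i then B i - A (i + 1) else 0) ≤
        2 * (w (cl i) + w (cl (i + 1))) := by
    intro i hi
    have hi' : i + 1 < K := by have := mem_range.1 hi; omega
    rw [← sum_filter, sum_const, smul_eq_mul]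
    by_cases h0 : B i ≤ A (i + 1)
    · rw [Nat.sub_eq_zero_of_le h0, mul_zero]
      exact Nat.zero_le _
    by_cases hc : cl i = cl (i + 1)
    · have : (range q).filter (fun r => cutP A B cl q r i) = ∅ := by
        rw [filter_eq_empty_iff]
        intro r _ hcut
        rcases hcut with h | h | h
        · exact h0 h
        · exact h.2 hc
        · obtain ⟨i', rfl⟩ : ∃ i', i = i' + 1 := ⟨i - 1, by omega⟩
          exact h3 i' (by omega) (by simpa using h.2.2) hc
      rw [this, card_empty, zero_mul]
      exact Nat.zero_le _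
    · have hcard : ((range q).filter (fun r => cutP A B cl q r i)).card ≤ 2 := by
        have hsub : (range q).filter (fun r => cutP A B cl q r i) ⊆ {i % q, (i - 1) % q} := by
          intro r hr
          rw [mem_insert, mem_singleton]
          rcases (mem_filter.1 hr).2 with h | h | h
          · exact absurd h h0
          · exact Or.inl h.1.symm
          · exact Or.inr h.2.1.symm
        exact (card_le_card hsub).trans card_le_two
      have := hov i hi' hc
      calc _ ≤ 2 * (B i - A (i + 1)) := Nat.mul_le_mul_right _ hcard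
        _ ≤ _ := by omega
  refine (sum_le_sum hone).trans ?_
  rw [← mul_sum, sum_add_distrib]
  have e1 : ∑ i ∈ range (K - 1), w (cl i) ≤ ∑ i ∈ range K, w (cl i) :=
    sum_le_sum_of_subset (range_subset_range.2 (Nat.sub_le _ _))
  have e2 : ∑ i ∈ range (K - 1), w (cl (i + 1)) ≤ ∑ i ∈ range K, w (cl i) := by
    rcases Nat.eq_zero_or_pos K with rfl | hK
    · simp
    · obtain ⟨K', rfl⟩ : ∃ K', K = K' + 1 := ⟨K - 1, by omega⟩
      rw [Nat.add_sub_cancel, sum_range_succ' (fun i => w (cl i))]
      omega
  omega

end Seq

/-- Enumeration of the marks. -/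
theorem exists_enum {σ : Type*} [DecidableEq σ] (Mk : Finset σ) (a : σ → ℕ)
    (hinj : ∀ s ∈ Mk, ∀ t ∈ Mk, a s = a t → s = t) (hne : Mk.Nonempty) :
    ∃ e : ℕ → σ, (∀ i < Mk.card, e i ∈ Mk) ∧ (∀ s ∈ Mk, ∃ i < Mk.card, e i = s) ∧
      ∀ i j, i < j → j < Mk.card → a (e i) < a (e j) := by
  classical
  have hcard : (Mk.image a).card = Mk.card :=
    card_image_of_injOn fun s hs t ht h => hinj s hs t ht h
  let f := (Mk.image a).orderEmbOfFin hcard
  have hf : ∀ i, ∃ s ∈ Mk, a s = f i := fun i =>
    mem_image.1 ((Mk.image a).orderEmbOfFin_mem hcard i)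
  choose g hg1 hg2 using hf
  obtain ⟨s0, hs0⟩ := hne
  refine ⟨fun i => if h : i < Mk.card then g ⟨i, h⟩ else s0, ?_, ?_, ?_⟩
  · intro i hi
    simp only [dif_pos hi]
    exact hg1 _
  · intro s hs
    have h1 : a s ∈ Set.range f := by
      rw [Finset.range_orderEmbOfFin]
      exact mem_coe.2 (mem_image_of_mem a hs)
    obtain ⟨i, hi⟩ := h1
    refine ⟨i, i.2, ?_⟩
    simp only [dif_pos i.2]
    exact hinj _ (hg1 _) _ hs (by rw [hg2, ← hi])
  · intro i j hij hj
    simp only [dif_pos hj, dif_pos (hij.trans hj)]
    rw [hg2, hg2]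
    exact f.strictMono hij

/-- **Step (1).** The marks are divided into segments. -/
theorem exists_cut {σ ι : Type*} [DecidableEq σ] [DecidableEq ι] (Mk : Finset σ) (a b : σ → ℕ)
    (cl : σ → ι) (w : ι → ℕ) (n q : ℕ) (hq : 0 < q)
    (hab : ∀ s ∈ Mk, a s ≤ b s ∧ b s ≤ n)
    (hmono : ∀ s ∈ Mk, ∀ t ∈ Mk, s ≠ t → a s ≤ a t → a s < a t ∧ b s < b t)
    (hcl : ∀ c, (Mk.filter fun s => cl s = c).card ≤ 2)
    (hov : ∀ s ∈ Mk, ∀ t ∈ Mk, cl s ≠ cl t → a s ≤ a t → b s ≤ a t + (w (cl s) + w (cl t))) :
    ∃ g : σ → ℕ,
      (∀ s ∈ Mk, ∀ t ∈ Mk, a s ≤ a t → g s ≤ g t) ∧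
      (∀ k, (Mk.filter fun s => g s = k).card ≤ q + 1) ∧
      (∀ s ∈ Mk, ∀ t ∈ Mk, g s = g t → a s ≤ a t → Ico (a s) (b t) ⊆
        (Mk.filter fun u => g u = g s).biUnion fun u => Ico (a u) (b u)) ∧
      q * ∑ k ∈ Mk.image g, ((Mk.filter fun s => g s = k).biUnion
        fun s => Ico (a s) (b s)).card ≤ q * n + 8 * ∑ c ∈ Mk.image cl, w c := by
  classical
  rcases Mk.eq_empty_or_nonempty with rfl | hne
  · exact ⟨fun _ => 0, by simp⟩
  have hinj : ∀ s ∈ Mk, ∀ t ∈ Mk, a s = a t → s = t := by
    intro s hs t ht h
    by_contra hst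
    have := (hmono s hs t ht hst h.le).1
    omega
  obtain ⟨e, he1, he2, he3⟩ := exists_enum Mk a hinj hne
  set K := Mk.card with hK
  have heinj : ∀ i < K, ∀ j < K, e i = e j → i = j := by
    intro i hi j hj h
    rcases lt_trichotomy i j with h1 | h1 | h1
    · have := he3 i j h1 hj
      rw [h] at this
      omega
    · exact h1
    · have := he3 j i h1 hi
      rw [h] at this
      omega
  have hle : ∀ i j, i ≤ j → j < K → a (e i) ≤ a (e j) := by
    intro i j h hj
    rcases h.lt_or_eq with h | rfl
    · exact (he3 i j h hj).le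
    · exact le_rfl
  have hle' : ∀ i j, i < K → j < K → a (e i) ≤ a (e j) → i ≤ j := by
    intro i j hi hj h
    by_contra hcon
    have := he3 j i (by omega) hi
    omega
  -- data of the sequence
  have hov' : ∀ i, i + 1 < K → cl (e i) ≠ cl (e (i + 1)) →
      b (e i) ≤ a (e (i + 1)) + (w (cl (e i)) + w (cl (e (i + 1)))) := fun i hi hc =>
    hov _ (he1 i (by omega)) _ (he1 _ hi) hc (hle i (i + 1) (by omega) hi)
  have h3' : ∀ i, i + 2 < K → cl (e i) = cl (e (i + 1)) → cl (e (i + 1)) ≠ cl (e (i + 2)) := by
    intro i hi h1 h2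
    have h4 : ({e i, e (i + 1), e (i + 2)} : Finset σ) ⊆
        Mk.filter fun s => cl s = cl (e i) := by
      intro s hs
      simp only [mem_insert, mem_singleton] at hs
      rcases hs with rfl | rfl | rfl
      · exact mem_filter.2 ⟨he1 _ (by omega), rfl⟩
      · exact mem_filter.2 ⟨he1 _ (by omega), h1.symm⟩
      · exact mem_filter.2 ⟨he1 _ (by omega), by rw [← h2, ← h1]⟩
    have h5 : ({e i, e (i + 1), e (i + 2)} : Finset σ).card = 3 := by
      rw [card_insert_of_notMem, card_insert_of_notMem, card_singleton]
      · rw [mem_singleton]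
        intro h
        have := heinj _ (by omega) _ (by omega) h
        omega
      · rw [mem_insert, mem_singleton]
        rintro (h | h)
        · have := heinj _ (by omega) _ (by omega) h
          omega
        · have := heinj _ (by omega) _ (by omega) h
          omega
    have := (card_le_card h4).trans (hcl _)
    omega
  have hsum := sum_cost (A := fun i => a (e i)) (B := fun i => b (e i)) (cl := fun i => cl (e i))
    hq w K hov' h3'
  -- sums over the marks
  have hre : ∀ f : σ → ℕ, ∑ i ∈ range K, f (e i) = ∑ s ∈ Mk, f s := by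
    intro f
    refine sum_bij (fun i _ => e i) (fun i hi => he1 i (mem_range.1 hi))
      (fun i hi j hj h => heinj i (mem_range.1 hi) j (mem_range.1 hj) h) (fun s hs => ?_)
      (fun _ _ => rfl)
    obtain ⟨i, hi, h⟩ := he2 s hs
    exact ⟨i, mem_range.2 hi, h⟩
  have hcw : ∑ s ∈ Mk, w (cl s) ≤ 2 * ∑ c ∈ Mk.image cl, w c := by
    rw [← sum_fiberwise_of_maps_to (g := cl) (t := Mk.image cl)
      (fun s hs => mem_image_of_mem cl hs), mul_sum]
    refine sum_le_sum fun c _ => ?_
    calc ∑ s ∈ Mk.filter (fun s => cl s = c), w (cl s)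
        = ∑ s ∈ Mk.filter (fun s => cl s = c), w c :=
          sum_congr rfl fun s hs => by rw [(mem_filter.1 hs).2]
      _ ≤ 2 * w c := by
          rw [sum_const, smul_eq_mul]
          exact Nat.mul_le_mul_right _ (hcl c)
  obtain ⟨r, hr, hrc⟩ : ∃ r < q, q * costN (fun i => a (e i)) (fun i => b (e i))
      (fun i => cl (e i)) q r (K - 1) ≤ 8 * ∑ c ∈ Mk.image cl, w c := by
    by_contra hcon
    push Not at hcon
    have h1 : ∑ r ∈ range q, 8 * ∑ c ∈ Mk.image cl, w c < ∑ r ∈ range q,
        q * costN (fun i => a (e i)) (fun i => b (e i)) (fun i => cl (e i)) q r (K - 1) :=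
      sum_lt_sum_of_nonempty (by simpa using hq.ne') fun r hr => hcon r (mem_range.1 hr)
    rw [sum_const, card_range, smul_eq_mul, ← mul_sum] at h1
    have h2 := lt_of_mul_lt_mul_left h1 (Nat.zero_le q)
    have h3 : ∑ i ∈ range K, w (cl (e i)) = ∑ s ∈ Mk, w (cl s) := hre (fun s => w (cl s))
    rw [h3] at hsum
    omega
  set G := segN (fun i => a (e i)) (fun i => b (e i)) (fun i => cl (e i)) q r with hG
  -- the index of a mark
  have hidx : ∀ s, ∃ i, s ∈ Mk → i < K ∧ e i = s := by
    intro s
    by_cases hs : s ∈ Mk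
    · obtain ⟨i, h1, h2⟩ := he2 s hs
      exact ⟨i, fun _ => ⟨h1, h2⟩⟩
    · exact ⟨0, fun h => absurd h hs⟩
  choose idx hidx using hidx
  have hidxe : ∀ i < K, idx (e i) = i := fun i hi =>
    heinj _ (hidx _ (he1 i hi)).1 _ hi (hidx _ (he1 i hi)).2
  refine ⟨fun s => G (idx s), ?_, ?_, ?_, ?_⟩
  · intro s hs t ht h
    refine segN_mono ?_
    refine hle' _ _ (hidx s hs).1 (hidx t ht).1 ?_
    rw [(hidx s hs).2, (hidx t ht).2]
    exact h
  · intro k
    show (Mk.filter fun s => G (idx s) = k).card ≤ q + 1
    by_cases hk : (Mk.filter fun s => G (idx s) = k).Nonempty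
    · obtain ⟨s0, hs0, hmin⟩ := exists_min_image _ idx hk
      have h1 : (Mk.filter fun s => G (idx s) = k).card ≤ (Icc (idx s0) (idx s0 + q)).card := by
        refine card_le_card_of_injOn idx ?_ ?_
        · intro s hs
          rw [mem_coe] at hs
          rw [mem_coe, mem_Icc]
          refine ⟨hmin s hs, ?_⟩
          refine seg_short (A := fun i => a (e i)) (B := fun i => b (e i))
            (cl := fun i => cl (e i)) hq hr (hmin s hs) ?_
          show G (idx s0) = G (idx s)
          rw [(mem_filter.1 hs0).2, (mem_filter.1 hs).2]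
        · intro s hs t ht h
          rw [mem_coe, mem_filter] at hs ht
          rw [← (hidx s hs.1).2, ← (hidx t ht.1).2, h]
      rw [Nat.card_Icc] at h1
      omega
    · rw [not_nonempty_iff_eq_empty.1 hk]
      simp
  · intro s hs t ht hg h x hx
    rw [mem_Ico] at hx
    have hst : idx s ≤ idx t := by
      refine hle' _ _ (hidx s hs).1 (hidx t ht).1 ?_
      rw [(hidx s hs).2, (hidx t ht).2]
      exact h
    obtain ⟨l, hl1, hl2, hl3, hl4⟩ := seg_hull (A := fun i => a (e i)) (B := fun i => b (e i))
      (cl := fun i => cl (e i)) (q := q) (r := r) hg hst x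
      (by rw [(hidx s hs).2]; exact hx.1) (by rw [(hidx t ht).2]; exact hx.2)
    have hlK : l < K := lt_of_le_of_lt hl2 (hidx t ht).1
    refine mem_biUnion.2 ⟨e l, mem_filter.2 ⟨he1 l hlK, ?_⟩, mem_Ico.2 ⟨hl3, hl4⟩⟩
    show G (idx (e l)) = G (idx s)
    rw [hidxe l hlK]
    have h1 : G (idx s) ≤ G l := segN_mono hl1
    have h2 : G l ≤ G (idx t) := segN_mono hl2
    have h3 : G (idx s) = G (idx t) := hg
    omega
  · have hb' : ∀ i, i + 1 < K → b (e i) ≤ b (e (i + 1)) := by
      intro i hi
      have h1 := he3 i (i + 1) (by omega) hi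
      exact (hmono _ (he1 i (by omega)) _ (he1 _ hi) (fun h => by
        rw [h] at h1
        omega) h1.le).2.le
    have hh := sum_hull (A := fun i => a (e i)) (B := fun i => b (e i)) (cl := fun i => cl (e i))
      (q := q) (r := r) K n (fun i hi => (he3 i (i + 1) (by omega) hi).le) hb'
      (fun i hi => (hab _ (he1 i hi)).1) (fun i hi => (hab _ (he1 i hi)).2)
    have hMk : Mk = (range K).image e := by
      ext s
      rw [mem_image]
      constructor
      · intro hs
        obtain ⟨i, hi, h⟩ := he2 s hs
        exact ⟨i, mem_range.2 hi, h⟩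
      · rintro ⟨i, hi, rfl⟩
        exact he1 i (mem_range.1 hi)
    have himg : Mk.image (fun s => G (idx s)) = (range K).image G := by
      ext k
      rw [mem_image, mem_image]
      constructor
      · rintro ⟨s, hs, rfl⟩
        exact ⟨idx s, mem_range.2 (hidx s hs).1, rfl⟩
      · rintro ⟨i, hi, rfl⟩
        exact ⟨e i, he1 i (mem_range.1 hi), by rw [hidxe i (mem_range.1 hi)]⟩
    have hun : ∀ k, ((Mk.filter fun s => G (idx s) = k).biUnion fun s => Ico (a s) (b s)) =
        (((range K).filter fun i => G i = k).biUnion fun i => Ico (a (e i)) (b (e i))) := by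
      intro k
      ext x
      rw [mem_biUnion, mem_biUnion]
      constructor
      · rintro ⟨s, hs, hx⟩
        rw [mem_filter] at hs
        refine ⟨idx s, mem_filter.2 ⟨mem_range.2 (hidx s hs.1).1, hs.2⟩, ?_⟩
        rw [(hidx s hs.1).2]
        exact hx
      · rintro ⟨i, hi, hx⟩
        rw [mem_filter, mem_range] at hi
        exact ⟨e i, mem_filter.2 ⟨he1 i hi.1, by rw [hidxe i hi.1]; exact hi.2⟩, hx⟩
    rw [himg]
    simp only [hun]
    calc q * _ ≤ q * (n + costN (fun i => a (e i)) (fun i => b (e i)) (fun i => cl (e i)) q r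
          (K - 1)) := Nat.mul_le_mul_left q hh
      _ ≤ _ := by rw [Nat.mul_add]; omega

end Vale.Agent.P333.K
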