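import Mathlib

/-!
P333, ratio below `7/3`, short proof (helper853): the chain lemma for weakly non-nested intervals and
the lemma of the two tilings.
-/

set_option autoImplicit false

namespace Vale.Agent.P333.K

open Finset

/-- Chain lemma. No interval is nested strictly on both sides in another one; the intersections are
bounded by the sums of the weights. Then the intervals nearly tile their union. -/
theorem chain_weak {ι : Type*} [DecidableEq ι] (A : Finset ι) (x y w : ι → ℕ)
    (hxy : ∀ i ∈ A, x i ≤ y i)
    (hnn : ∀ i ∈ A, ∀ j ∈ A, x i < x j → y i ≤ y j)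
    (hw : ∀ i ∈ A, ∀ j ∈ A, i ≠ j → x i ≤ x j → y i ≤ y j → y i ≤ x j + (w i + w j)) :
    ∑ i ∈ A, (y i - x i) ≤ (A.biUnion fun i => Ico (x i) (y i)).card + 2 * ∑ i ∈ A, w i := by
  classical
  suffices h : A = ∅ ∨ ∃ m ∈ A, (∀ i ∈ A, x i ≤ x m ∧ y i ≤ y m) ∧
      ∑ i ∈ A, (y i - x i) + w m ≤
        (A.biUnion fun i => Ico (x i) (y i)).card + 2 * ∑ i ∈ A, w i by
    rcases h with rfl | ⟨m, -, -, h⟩
    · simp
    · omega
  revert hxy hnn hw
  induction A using Finset.induction_on_max_value (fun i => toLex (x i, y i)) with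
  | empty => intros; exact Or.inl rfl
  | insert a s has hmax ih =>
    intro hxy hnn hw
    right
    have hmax' : ∀ i ∈ s, x i ≤ x a ∧ y i ≤ y a := by
      intro i hi
      have h1 := hmax i hi
      rw [Prod.Lex.toLex_le_toLex] at h1
      rcases h1 with h1 | h1
      · exact ⟨h1.le, hnn i (mem_insert_of_mem hi) a (mem_insert_self _ _) h1⟩
      · exact ⟨h1.1.le, h1.2⟩
    refine ⟨a, mem_insert_self _ _, ?_, ?_⟩
    · intro i hi
      rcases mem_insert.mp hi with rfl | hi
      · exact ⟨le_rfl, le_rfl⟩
      · exact hmax' i hi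
    · rw [sum_insert has, sum_insert has, biUnion_insert]
      have ha := hxy a (mem_insert_self _ _)
      rcases ih (fun i hi => hxy i (mem_insert_of_mem hi))
        (fun i hi j hj => hnn i (mem_insert_of_mem hi) j (mem_insert_of_mem hj))
        (fun i hi j hj => hw i (mem_insert_of_mem hi) j (mem_insert_of_mem hj)) with hs | ⟨m, hm, h1, h2⟩
      · subst hs
        simp
        omega
      · have hu := card_union_add_card_inter (Ico (x a) (y a)) (s.biUnion fun i => Ico (x i) (y i))
        have hi : (Ico (x a) (y a) ∩ s.biUnion fun i => Ico (x i) (y i)).card ≤ w m + w a := by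
          have hsub : (Ico (x a) (y a) ∩ s.biUnion fun i => Ico (x i) (y i)) ⊆
              Ico (x a) (y m) := by
            intro z hz
            rw [mem_inter, mem_biUnion] at hz
            obtain ⟨hz1, i, hi, hz2⟩ := hz
            rw [mem_Ico] at hz1 hz2 ⊢
            exact ⟨hz1.1, lt_of_lt_of_le hz2.2 (h1 i hi).2⟩
          refine (card_le_card hsub).trans ?_
          rw [Nat.card_Ico]
          have h3 := hw m (mem_insert_of_mem hm) a (mem_insert_self _ _)
            (fun h => has (h ▸ hm)) (hmax' m hm).1 (hmax' m hm).2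
          omega
        rw [Nat.card_Ico] at hu
        omega

/-- **Two tilings.** The word `u = T[z, z+l) = T[z', z'+l)`; two families of intervals; the words of
the intervals of different members agree only on short factors, and no word of a member is a factor
of another one. Then `u` is not covered well by both families. -/
theorem two_tilings {σ : Type*} [DecidableEq σ] (T : ℕ → ℕ) (a b w : σ → ℕ) (A A' : Finset σ)
    (hdisj : Disjoint A A') (z z' l : ℕ) (hu : ∀ j < l, T (z + j) = T (z' + j))
    (hab : ∀ s ∈ A ∪ A', a s ≤ b s)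
    (hA : ∀ s ∈ A, a s < z + l ∧ z < b s) (hA' : ∀ s ∈ A', a s < z' + l ∧ z' < b s)
    (hfw : ∀ s ∈ A ∪ A', ∀ t ∈ A ∪ A', s ≠ t → ∀ x y k, a s ≤ x → x + k ≤ b s →
      a t ≤ y → y + k ≤ b t → (∀ j < k, T (x + j) = T (y + j)) → k ≤ w s + w t)
    (hns : ∀ s ∈ A ∪ A', ∀ t ∈ A ∪ A', s ≠ t → ∀ y, a t ≤ y → y + (b s - a s) ≤ b t →
      ¬ ∀ j < b s - a s, T (a s + j) = T (y + j)) :
    l ≤ (Ico z (z + l) \ A.biUnion fun s => Ico (a s) (b s)).card +
      (Ico z' (z' + l) \ A'.biUnion fun s => Ico (a s) (b s)).card +
      2 * ∑ s ∈ A, w s + 2 * ∑ s ∈ A', w s := by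
  classical
  -- common coordinates
  let Z : σ → ℕ := fun s => if s ∈ A then z else z'
  let X : σ → ℕ := fun s => a s - Z s
  let Y : σ → ℕ := fun s => min (b s) (Z s + l) - Z s
  have hZ : ∀ s ∈ A, Z s = z := fun s hs => if_pos hs
  have hZ' : ∀ s ∈ A', Z s = z' := fun s hs => if_neg (fun h => disjoint_left.1 hdisj h hs)
  have hcase : ∀ s ∈ A ∪ A', (Z s = z ∨ Z s = z') ∧ a s < Z s + l ∧ Z s < b s := by
    intro s hs
    rcases mem_union.1 hs with h | h
    · rw [hZ s h]; exact ⟨Or.inl rfl, hA s h⟩
    · rw [hZ' s h]; exact ⟨Or.inr rfl, hA' s h⟩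
  have huu : ∀ s ∈ A ∪ A', ∀ t ∈ A ∪ A', ∀ j < l, T (Z s + j) = T (Z t + j) := by
    intro s hs t ht j hj
    rcases (hcase s hs).1 with h1 | h1 <;> rcases (hcase t ht).1 with h2 | h2 <;> rw [h1, h2]
    · exact hu j hj
    · exact (hu j hj).symm
  have key := chain_weak (A ∪ A') X Y w (fun s hs => by
      have := hcase s hs
      have := hab s hs
      simp only [X, Y]
      omega)
    (fun s hs t ht hlt => by
      by_contra hcon
      have h1 := hcase s hs
      have h2 := hcase t ht
      have h3 := hab t ht
      simp only [X, Y] at hlt hcon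
      have hne : t ≠ s := by
        rintro rfl
        omega
      refine hns t ht s hs hne (Z s + (a t - Z t)) (by omega) (by omega) ?_
      intro j hj
      have h4 := huu t ht s hs (a t - Z t + j) (by omega)
      have e1 : a t + j = Z t + (a t - Z t + j) := by omega
      rw [e1, h4, Nat.add_assoc])
    (fun s hs t ht hne h1 h2 => by
      by_contra hcon
      have h3 := hcase s hs
      have h4 := hcase t ht
      simp only [X, Y] at h1 h2 hcon
      have h5 := hfw s hs t ht hne (Z s + (a t - Z t)) (Z t + (a t - Z t))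
        (min (b s) (Z s + l) - Z s - (a t - Z t)) (by omega) (by omega) (by omega) (by omega) (by
          intro j hj
          have := huu s hs t ht (a t - Z t + j) (by omega)
          rw [Nat.add_assoc, Nat.add_assoc]
          exact this)
      omega)
  -- the union is inside of `[0, l)`
  have hU : ((A ∪ A').biUnion fun s => Ico (X s) (Y s)).card ≤ l := by
    have : ((A ∪ A').biUnion fun s => Ico (X s) (Y s)) ⊆ range l := by
      intro p hp
      rw [mem_biUnion] at hp
      obtain ⟨s, hs, hp⟩ := hp
      rw [mem_Ico] at hp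
      simp only [Y] at hp
      rw [mem_range]
      omega
    simpa using card_le_card this
  rw [sum_union hdisj, sum_union hdisj] at key
  -- each family
  have hfam : ∀ (B : Finset σ) (c : ℕ), (∀ s ∈ B, Z s = c) →
      l ≤ (Ico c (c + l) \ B.biUnion fun s => Ico (a s) (b s)).card + ∑ s ∈ B, (Y s - X s) := by
    intro B c hB
    have h1 : (Ico c (c + l)).card ≤
        (Ico c (c + l) \ B.biUnion fun s => Ico (a s) (b s)).card +
        (B.biUnion fun s => Ico c (c + l) ∩ Ico (a s) (b s)).card := by
      refine (card_le_card ?_).trans (card_union_le _ _)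
      intro p hp
      rw [mem_union]
      by_cases h : p ∈ B.biUnion fun s => Ico (a s) (b s)
      · right
        rw [mem_biUnion] at h ⊢
        obtain ⟨s, hs, h⟩ := h
        exact ⟨s, hs, mem_inter.2 ⟨hp, h⟩⟩
      · left
        exact mem_sdiff.2 ⟨hp, h⟩
    have h2 : (B.biUnion fun s => Ico c (c + l) ∩ Ico (a s) (b s)).card ≤
        ∑ s ∈ B, (Y s - X s) := by
      refine card_biUnion_le.trans (sum_le_sum fun s hs => ?_)
      have hsub : (Ico c (c + l) ∩ Ico (a s) (b s)) ⊆
          Ico (max c (a s)) (min (b s) (c + l)) := by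
        intro p hp
        simp only [mem_inter, mem_Ico] at hp ⊢
        omega
      refine (card_le_card hsub).trans ?_
      rw [Nat.card_Ico]
      simp only [X, Y, hB s hs]
      omega
    rw [Nat.card_Ico] at h1
    omega
  have f1 := hfam A z hZ
  have f2 := hfam A' z' hZ'
  omega

end Vale.Agent.P333.K
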