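import Mathlib
import Vale.Agent.P333.K.TwoTil
import Vale.Agent.P333.K.Cut
import Vale.Agent.P333.K.Cover1
import Vale.Agent.P333.E.Defs

/-!
P333, ratio below `7/3`, short proof (helper853): the core.

Marks: the first and the last string of every class. The marks are divided into segments. Classes
inside of one segment: `I`. Tiles: the first strings of the classes of `I`.
-/

set_option autoImplicit false
set_option linter.all false

namespace Vale.Agent.P333.K

open Finset Vale.Agent.P333.E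

theorem core {ι σ : Type} [Fintype ι] [Fintype σ] [DecidableEq ι] [DecidableEq σ] (E : Dat ι σ)
    (hE : E.Ok) {N D M q : ℕ} (hq : 0 < q) (hM : q + 1 ≤ M)
    (hne : ∀ c, ∃ s, E.cl s = c)
    (hns : ∀ s t, s ≠ t → ∀ y, E.a t ≤ y → y + (E.b s - E.a s) ≤ E.b t →
      ¬ ∀ j < E.b s - E.a s, E.T (E.a s + j) = E.T (y + j))
    (hfw : ∀ s t, E.cl s ≠ E.cl t → ∀ z z' k, E.a s ≤ z → z + k ≤ E.b s → E.a t ≤ z' →
      z' + k ≤ E.b t → (∀ j < k, E.T (z + j) = E.T (z' + j)) →
      k ≤ E.w (E.cl s) + E.w (E.cl t))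
    (hsame : ∀ s t, E.cl s = E.cl t → ∃ z z' k, E.a s ≤ z ∧ z + k ≤ E.b s ∧ E.a t ≤ z' ∧
      z' + k ≤ E.b t ∧ (∀ j < k, E.T (z + j) = E.T (z' + j)) ∧
      2 * E.o (E.cl s) ≤ 2 * k + E.w (E.cl s))
    (hlo : ∀ Q : Finset σ, Q.card ≤ M → ∀ I J : Finset ι,
      (∀ c ∈ I, ∀ s, E.cl s = c →
        Ico (E.a s) (E.b s) ⊆ Q.biUnion fun s => Ico (E.a s) (E.b s)) →
      (∀ c ∈ J, ∃ s, E.cl s = c ∧
        Ico (E.a s) (E.b s) ⊆ Q.biUnion fun s => Ico (E.a s) (E.b s)) →
      D * ∑ c ∈ I, E.w c + N * ∑ c ∈ J, E.o c ≤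
        D * (Q.biUnion fun s => Ico (E.a s) (E.b s)).card) :
    ∃ (I : Finset ι) (N' U : ℕ),
      q * N' ≤ q * E.n + 8 * ∑ c, E.w c ∧
      D * ∑ c ∈ I, E.w c + N * (∑ c ∈ I, E.o c + 2 * ∑ c ∈ Iᶜ, E.o c) ≤ D * N' ∧
      U + ∑ c ∈ I, E.o c ≤ N' + 2 * ∑ c ∈ I, E.w c ∧
      N * ∑ c ∈ Iᶜ.filter (fun c => 3 * E.w c ≤ 4 * E.o c), E.o c ≤
        28 * D * (U + 4 * ∑ c ∈ I, E.w c) := by
  classical
  have hab : ∀ s, E.a s ≤ E.b s := fun s => by
    have := hE.len1 s
    omega
  have hb2 : ∀ s t, E.a s ≤ E.a t → E.b s ≤ E.b t := by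
    intro s t h
    by_cases hst : s = t
    · rw [hst]
    · exact (hE.nn s t hst h).2.le
  -- the marks
  have hf : ∀ c, ∃ s, E.cl s = c ∧ ∀ t, E.cl t = c → E.a s ≤ E.a t := by
    intro c
    obtain ⟨s0, hs0⟩ := hne c
    obtain ⟨s, hs, hmin⟩ := exists_min_image (univ.filter fun s => E.cl s = c) E.a
      ⟨s0, mem_filter.2 ⟨mem_univ _, hs0⟩⟩
    exact ⟨s, (mem_filter.1 hs).2, fun t ht => hmin t (mem_filter.2 ⟨mem_univ _, ht⟩)⟩
  have hl : ∀ c, ∃ s, E.cl s = c ∧ ∀ t, E.cl t = c → E.a t ≤ E.a s := by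
    intro c
    obtain ⟨s0, hs0⟩ := hne c
    obtain ⟨s, hs, hmax⟩ := exists_max_image (univ.filter fun s => E.cl s = c) E.a
      ⟨s0, mem_filter.2 ⟨mem_univ _, hs0⟩⟩
    exact ⟨s, (mem_filter.1 hs).2, fun t ht => hmax t (mem_filter.2 ⟨mem_univ _, ht⟩)⟩
  choose f hf1 hf2 using hf
  choose l hl1 hl2 using hl
  set Mk : Finset σ := univ.image f ∪ univ.image l with hMk
  have hfM : ∀ c, f c ∈ Mk := fun c => mem_union_left _ (mem_image_of_mem f (mem_univ c))
  have hlM : ∀ c, l c ∈ Mk := fun c => mem_union_right _ (mem_image_of_mem l (mem_univ c))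
  have hov : ∀ s t, E.cl s ≠ E.cl t → E.a s ≤ E.a t →
      E.b s ≤ E.a t + (E.w (E.cl s) + E.w (E.cl t)) := by
    intro s t hst h
    have h1 := hE.nn s t (fun h => hst (by rw [h])) h
    by_cases h4 : E.b s ≤ E.a t
    · omega
    · have h3 := hfw s t hst (E.a t) (E.a t) (E.b s - E.a t) h (by omega) le_rfl
        (by omega) (fun _ _ => rfl)
      omega
  obtain ⟨g, hg1, hg2, hg3, hg4⟩ := exists_cut Mk E.a E.b E.cl E.w E.n q hq
    (fun s _ => ⟨hab s, hE.bn s⟩) (fun s _ t _ hst h => hE.nn s t hst h)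
    (fun c => by
      refine (card_le_card (t := {f c, l c}) ?_).trans card_le_two
      intro s hs
      rw [mem_filter, hMk, mem_union, mem_image, mem_image] at hs
      rw [mem_insert, mem_singleton]
      rcases hs.1 with ⟨c', -, rfl⟩ | ⟨c', -, rfl⟩
      · left; rw [← hs.2, hf1]
      · right; rw [← hs.2, hl1])
    (fun s _ t _ hst h => hov s t hst h)
  -- segments
  set Ms : ℕ → Finset σ := fun k => Mk.filter fun s => g s = k with hMs
  set U : ℕ → Finset ℕ := fun k => (Ms k).biUnion fun s => Ico (E.a s) (E.b s) with hU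
  set G : Finset ℕ := Mk.image g with hG
  have hfG : ∀ c, g (f c) ∈ G := fun c => mem_image_of_mem g (hfM c)
  have hlG : ∀ c, g (l c) ∈ G := fun c => mem_image_of_mem g (hlM c)
  set I : Finset ι := univ.filter fun c => g (f c) = g (l c) with hI
  set Ik : ℕ → Finset ι := fun k => I.filter fun c => g (f c) = k with hIk
  have hfl : ∀ c, E.a (f c) ≤ E.a (l c) := fun c => hf2 c _ (hl1 c)
  -- sums over the segments
  have hsumI : ∀ h : ι → ℕ, ∑ k ∈ G, ∑ c ∈ Ik k, h c = ∑ c ∈ I, h c := fun h =>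
    sum_fiberwise_of_maps_to (fun c _ => hfG c) h
  -- (A)
  set Jf : ℕ → Finset ι := fun k => univ.filter fun c => g (f c) = k with hJf
  set Jl : ℕ → Finset ι := fun k => Iᶜ.filter fun c => g (l c) = k with hJl
  have hdj : ∀ k, Disjoint (Jf k) (Jl k) := by
    intro k
    rw [disjoint_left]
    intro c h1 h2
    rw [hJf, mem_filter] at h1
    rw [hJl, mem_filter, mem_compl, hI, mem_filter] at h2
    exact h2.1 ⟨mem_univ _, h1.2.trans h2.2.symm⟩
  have hA1 : ∀ k ∈ G, D * ∑ c ∈ Ik k, E.w c + N * (∑ c ∈ Jf k, E.o c + ∑ c ∈ Jl k, E.o c) ≤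
      D * (U k).card := by
    intro k hk
    rw [← sum_union (hdj k)]
    refine hlo (Ms k) ((hg2 k).trans hM) _ _ ?_ ?_
    · intro c hc s hs
      rw [hIk, mem_filter, hI, mem_filter] at hc
      have h1 := hg3 (f c) (hfM c) (l c) (hlM c) hc.1.2 (hfl c)
      rw [hc.2] at h1
      refine Subset.trans (fun x hx => ?_) h1
      rw [mem_Ico] at hx ⊢
      have h2 := hf2 c s hs
      have h3 := hb2 s (l c) (hl2 c s hs)
      omega
    · intro c hc
      rcases mem_union.1 hc with hc | hc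
      · rw [hJf, mem_filter] at hc
        exact ⟨f c, hf1 c, subset_biUnion_of_mem (fun s => Ico (E.a s) (E.b s))
          (mem_filter.2 ⟨hfM c, hc.2⟩)⟩
      · rw [hJl, mem_filter] at hc
        exact ⟨l c, hl1 c, subset_biUnion_of_mem (fun s => Ico (E.a s) (E.b s))
          (mem_filter.2 ⟨hlM c, hc.2⟩)⟩
  have hA2 : ∑ k ∈ G, ∑ c ∈ Jf k, E.o c = ∑ c, E.o c :=
    sum_fiberwise_of_maps_to (fun c _ => hfG c) E.o
  have hA3 : ∑ k ∈ G, ∑ c ∈ Jl k, E.o c = ∑ c ∈ Iᶜ, E.o c :=
    sum_fiberwise_of_maps_to (fun c _ => hlG c) E.o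
  have hA4 : ∑ c, E.o c = ∑ c ∈ I, E.o c + ∑ c ∈ Iᶜ, E.o c := (sum_add_sum_compl I E.o).symm
  -- tiles
  set V : ℕ → Finset ℕ := fun k => (Ik k).biUnion fun c => Ico (E.a (f c)) (E.b (f c)) with hV
  have hVU : ∀ k, V k ⊆ U k := by
    intro k x hx
    obtain ⟨c, hc, hx⟩ := mem_biUnion.1 hx
    rw [hIk, mem_filter] at hc
    exact mem_biUnion.2 ⟨f c, mem_filter.2 ⟨hfM c, hc.2⟩, hx⟩
  have hfne : ∀ c c', c ≠ c' → E.cl (f c) ≠ E.cl (f c') := by
    intro c c' h
    rw [hf1, hf1]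
    exact h
  have hB1 : ∀ k, (U k \ V k).card + ∑ c ∈ Ik k, E.o c ≤ (U k).card + 2 * ∑ c ∈ Ik k, E.w c := by
    intro k
    have h1 := chain_weak (Ik k) (fun c => E.a (f c)) (fun c => E.b (f c)) E.w
      (fun c _ => hab _) (fun c _ c' _ h => hb2 _ _ h.le) (fun c _ c' _ hcc h _ => by
        have := hov (f c) (f c') (hfne c c' hcc) h
        rwa [hf1, hf1] at this)
    have h2 : ∑ c ∈ Ik k, E.o c ≤ ∑ c ∈ Ik k, (E.b (f c) - E.a (f c)) := by
      refine sum_le_sum fun c _ => ?_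
      have := hE.len1 (f c)
      rw [hf1] at this
      omega
    have h3 := card_sdiff_add_card_eq_card (hVU k)
    have h4 : (V k).card = ((Ik k).biUnion fun c => Ico (E.a (f c)) (E.b (f c))).card := rfl
    omega
  -- the defect of a mark
  set v : σ → ℕ := fun s => (Ico (E.a s) (E.b s) \ V (g s)).card +
    2 * ∑ c ∈ (Ik (g s)).filter (fun c => E.a s < E.b (f c) ∧ E.a (f c) < E.b s), E.w c with hv
  have hC1 : ∀ p ∉ I, 2 * E.o p ≤ 2 * (v (f p) + v (l p)) + E.w p := by
    intro p hp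
    have hpg : g (f p) ≠ g (l p) := fun h => hp (mem_filter.2 ⟨mem_univ _, h⟩)
    obtain ⟨z, z', k, h1, h2, h3, h4, h5, h6⟩ := hsame (f p) (l p) (by rw [hf1, hl1])
    rw [hf1] at h6
    -- the part of one of the two marks
    have hpart : ∀ (s : σ) (z : ℕ), E.a s ≤ z → z + k ≤ E.b s →
        (Ico z (z + k) \ ((Ik (g s)).filter fun c => E.a (f c) < z + k ∧ z < E.b (f c)).biUnion
          fun c => Ico (E.a (f c)) (E.b (f c))).card +
        2 * ∑ c ∈ (Ik (g s)).filter (fun c => E.a (f c) < z + k ∧ z < E.b (f c)), E.w c ≤ v s := by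
      intro s z h1 h2
      rw [hv]
      refine Nat.add_le_add (card_le_card ?_) (Nat.mul_le_mul_left 2
        (sum_le_sum_of_subset ?_))
      · intro x hx
        rw [mem_sdiff, mem_Ico] at hx
        rw [mem_sdiff, mem_Ico]
        refine ⟨⟨by omega, by omega⟩, fun h => hx.2 ?_⟩
        obtain ⟨c, hc, hx'⟩ := mem_biUnion.1 h
        rw [mem_Ico] at hx'
        exact mem_biUnion.2 ⟨c, mem_filter.2 ⟨hc, by omega, by omega⟩, mem_Ico.2 hx'⟩
      · intro c hc
        rw [mem_filter] at hc ⊢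
        exact ⟨hc.1, by omega, by omega⟩
    have h7 := two_tilings E.T (fun c => E.a (f c)) (fun c => E.b (f c)) E.w
      ((Ik (g (f p))).filter fun c => E.a (f c) < z + k ∧ z < E.b (f c))
      ((Ik (g (l p))).filter fun c => E.a (f c) < z' + k ∧ z' < E.b (f c))
      (by
        rw [disjoint_left]
        intro c hc hc'
        have e1 := (mem_filter.1 (mem_filter.1 hc).1).2
        have e2 := (mem_filter.1 (mem_filter.1 hc').1).2
        exact hpg (e1.symm.trans e2))
      z z' k h5 (fun c _ => hab _)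
      (fun c hc => (mem_filter.1 hc).2) (fun c hc => (mem_filter.1 hc).2)
      (fun c _ c' _ hcc x y k h1 h2 h3 h4 h5 => by
        have := hfw (f c) (f c') (hfne c c' hcc) x y k h1 h2 h3 h4 h5
        rwa [hf1, hf1] at this)
      (fun c _ c' _ hcc y h1 h2 => hns (f c) (f c') (fun h => hfne c c' hcc (by rw [h])) y h1 h2)
    have h8 := hpart (f p) z h1 h2
    have h9 := hpart (l p) z' h3 h4
    omega
  -- the better mark
  set e : ι → σ := fun p => if v (l p) ≤ v (f p) then f p else l p with he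
  have heM : ∀ p, e p ∈ Mk := by
    intro p
    rw [he]
    dsimp only
    split_ifs
    · exact hfM p
    · exact hlM p
  have hecl : ∀ p, E.cl (e p) = p := by
    intro p
    rw [he]
    dsimp only
    split_ifs
    · exact hf1 p
    · exact hl1 p
  have hev : ∀ p ∉ I, 2 * E.o p ≤ 4 * v (e p) + E.w p := by
    intro p hp
    have := hC1 p hp
    rw [he]
    dsimp only
    split_ifs <;> omega
  have hene : ∀ p p', p ≠ p' → e p ≠ e p' := by
    intro p p' h h'
    exact h (by rw [← hecl p, h', hecl])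
  have heG : ∀ p, g (e p) ∈ G := fun p => mem_image_of_mem g (heM p)
  set C2 : Finset ι := Iᶜ.filter (fun c => 3 * E.w c ≤ 4 * E.o c) with hC2
  -- one segment
  have hD1 : ∀ k ∈ G, N * ∑ c ∈ C2.filter (fun p => g (e p) = k), E.o c ≤
      28 * D * ((U k \ V k).card + 4 * ∑ c ∈ Ik k, E.w c) := by
    intro k hk
    set P : Finset ι := C2.filter (fun p => g (e p) = k) with hP
    have hPI : ∀ p ∈ P, p ∉ I ∧ 3 * E.w p ≤ 4 * E.o p ∧ g (e p) = k := by
      intro p hp
      rw [hP, mem_filter, hC2, mem_filter, mem_compl] at hp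
      exact ⟨hp.1.1, hp.1.2, hp.2⟩
    obtain ⟨F, hFP, hFd, hFc⟩ := exists_half (fun p => E.a (e p)) (fun p => E.b (e p)) P
      (fun p _ p' _ hpp h => hE.nn _ _ (hene p p' hpp) h)
    -- no improvement
    have h1 := hlo (P.image e) (by
        refine le_trans (card_le_card (t := Ms k) ?_) ((hg2 k).trans hM)
        intro s hs
        obtain ⟨p, hp, rfl⟩ := mem_image.1 hs
        exact mem_filter.2 ⟨heM p, (hPI p hp).2.2⟩) ∅ P (by simp) (by
        intro p hp
        exact ⟨e p, hecl p, subset_biUnion_of_mem (fun s => Ico (E.a s) (E.b s))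
          (mem_image_of_mem e hp)⟩)
    rw [image_biUnion, sum_empty, mul_zero, zero_add] at h1
    -- lengths
    have h2 : ∑ p ∈ F, (E.b (e p) - E.a (e p)) ≤ 14 * ∑ p ∈ F, v (e p) := by
      rw [mul_sum]
      refine sum_le_sum fun p hp => ?_
      have h3 := hE.len2 (e p)
      rw [hecl] at h3
      have h4 := hPI p (hFP hp)
      have h5 := hev p h4.1
      omega
    -- defects
    have h3 : ∑ p ∈ F, v (e p) ≤ (U k \ V k).card + 4 * ∑ c ∈ Ik k, E.w c := by
      have h4 : ∑ p ∈ F, v (e p) = ∑ p ∈ F, (Ico (E.a (e p)) (E.b (e p)) \ V k).card +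
          2 * ∑ p ∈ F, ∑ c ∈ (Ik k).filter
            (fun c => E.a (e p) < E.b (f c) ∧ E.a (f c) < E.b (e p)), E.w c := by
        rw [mul_sum, ← sum_add_distrib]
        refine sum_congr rfl fun p hp => ?_
        rw [hv]
        dsimp only
        rw [(hPI p (hFP hp)).2.2]
      rw [h4]
      refine Nat.add_le_add ?_ ?_
      · rw [← card_biUnion]
        · refine card_le_card ?_
          intro x hx
          obtain ⟨p, hp, hx⟩ := mem_biUnion.1 hx
          rw [mem_sdiff] at hx ⊢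
          exact ⟨mem_biUnion.2 ⟨e p, mem_filter.2 ⟨heM p, (hPI p (hFP hp)).2.2⟩, hx.1⟩, hx.2⟩
        · intro p hp p' hp' hpp
          rw [Function.onFun, disjoint_left]
          intro x hx hx'
          rw [mem_sdiff, mem_Ico] at hx hx'
          have := hFd p hp p' hp' hpp
          omega
      · have h5 : ∑ p ∈ F, ∑ c ∈ (Ik k).filter
            (fun c => E.a (e p) < E.b (f c) ∧ E.a (f c) < E.b (e p)), E.w c =
            ∑ c ∈ Ik k, ∑ p ∈ F.filter
              (fun p => E.a (f c) < E.b (e p) ∧ E.a (e p) < E.b (f c)), E.w c := by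
          refine sum_comm' fun p c => ?_
          simp only [mem_filter]
          tauto
        rw [h5]
        have h6 : ∑ c ∈ Ik k, ∑ p ∈ F.filter
            (fun p => E.a (f c) < E.b (e p) ∧ E.a (e p) < E.b (f c)), E.w c ≤
            ∑ c ∈ Ik k, 2 * E.w c := by
          refine sum_le_sum fun c hc => ?_
          rw [sum_const, smul_eq_mul]
          refine Nat.mul_le_mul_right _ ?_
          refine card_meets (fun p => E.a (e p)) (fun p => E.b (e p)) F (E.a (f c)) (E.b (f c))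
            hFd ?_
          intro p hp
          rcases Nat.lt_or_ge (E.a (e p)) (E.a (f c)) with h | h
          · exact Or.inl h
          · right
            refine (hE.nn (f c) (e p) ?_ h).2
            intro hh
            have hcI : c ∈ I := (mem_filter.1 hc).1
            have : c = p := by rw [← hf1 c, hh, hecl]
            exact (hPI p (hFP hp)).1 (this ▸ hcI)
        rw [← mul_sum] at h6
        omega
    have h9 : N * ∑ c ∈ P, E.o c ≤
        D * (28 * ((U k \ V k).card + 4 * ∑ c ∈ Ik k, E.w c)) := by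
      refine h1.trans (Nat.mul_le_mul_left D ?_)
      omega
    calc _ ≤ _ := h9
      _ = _ := by ring
  -- sums
  refine ⟨I, ∑ k ∈ G, (U k).card, ∑ k ∈ G, (U k \ V k).card, ?_, ?_, ?_, ?_⟩
  · refine hg4.trans ?_
    have : ∑ c ∈ Mk.image E.cl, E.w c ≤ ∑ c, E.w c := sum_le_sum_of_subset (subset_univ _)
    omega
  · have h1 := sum_le_sum hA1
    rw [sum_add_distrib, ← mul_sum, ← mul_sum, ← mul_sum, sum_add_distrib, hsumI, hA2, hA3,
      hA4] at h1
    refine le_trans (le_of_eq ?_) h1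
    ring
  · have h1 := sum_le_sum fun k (_ : k ∈ G) => hB1 k
    rw [sum_add_distrib, sum_add_distrib, ← mul_sum, hsumI, hsumI] at h1
    exact h1
  · have h1 := sum_le_sum hD1
    rw [← mul_sum, ← mul_sum, sum_add_distrib, ← mul_sum, hsumI,
      sum_fiberwise_of_maps_to (fun c _ => heG c) E.o] at h1
    exact h1

end Vale.Agent.P333.K
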