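import Vale.Agent.P333.K.NoPeel
import Vale.Agent.P333.E.Final

/-!
P333, ratio below `7/3`, short proof (helper853): assembly.
-/

set_option linter.all false

namespace Vale.Agent.P333.K

open Vale.Agent.P333 Vale.Agent.P333.U Vale.Agent.P333.E

theorem hasApprox_main : HasApprox (7 / 3 - 1 / 10 ^ 9) := by
  obtain ⟨M, hM⟩ := K.exists_noPeel
  have h := hasApprox_of (by norm_num) (by norm_num) (algSide _ _ M) hM
  have e : ((1000000000 : ℕ) : ℝ) = 10 ^ 9 := by norm_num
  rwa [e] at h

end Vale.Agent.P333.K
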