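import Vale.Agent.P333.K.Core
import Vale.Agent.P333.K.Bridge
import Vale.Agent.P333.E.Spec

/-!
P333, ratio below `7/3`, short proof (helper853): the numbers.
-/

set_option autoImplicit false
set_option linter.all false

namespace Vale.Agent.P333.K

open Vale.Agent.P333 Vale.Agent.P333.U Vale.Agent.P333.E Finset

/-- The linear programme. -/
theorem lin_core (n WI WC OI OC OC2 N' U : ℕ)
    (h1 : 100000000 * N' ≤ 100000000 * n + 8 * (WI + WC))
    (h2 : 48000 * WI + 15997 * (OI + 2 * OC) ≤ 48000 * N')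
    (h3 : U + OI ≤ N' + 2 * WI)
    (h4 : 15997 * OC2 ≤ 28 * 48000 * (U + 4 * WI))
    (h5 : 4 * OC ≤ 3 * WC + 4 * OC2)
    (h6 : OI ≤ n + WI) (h7 : WI + WC ≤ n) :
    10000 * (3 * (WI + WC) + (OI + OC)) ≤ 49997 * n := by
  zify at *
  linarith

theorem lin_final (n WL OL Wr Or : ℕ)
    (h1 : 10000 * (3 * Wr + Or) ≤ 49997 * n) (h2 : Or ≤ n + Wr) (h3 : WL ≤ n)
    (h4 : OL ≤ n + WL) :
    1000000000 * (3 * 48000 * WL + 3 * 15997 * OL + 48000 * Or) ≤
      (5 * 1000000000 - 3) * (48000 * n) + 1000000000 * (3 * 15997 * Or) := by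
  norm_num
  zify at *
  linarith

/-- Lemma A as a bound for the sum of the overlaps of some classes. -/
theorem sum_o_le {L : List (List (List ℕ))} {n : ℕ}
    (h : (L.map (fun c => cycO c + 1 - cycW c)).sum ≤ n) (w o : Fin L.length → ℕ)
    (hw : ∀ c, w c = cycW (L.get c)) (ho : ∀ c, o c = cycO (L.get c))
    (I : Finset (Fin L.length)) : ∑ c ∈ I, o c ≤ n + ∑ c ∈ I, w c := by
  rw [← sum_get_eq] at h
  calc ∑ c ∈ I, o c ≤ ∑ c ∈ I, ((cycO (L.get c) + 1 - cycW (L.get c)) + w c) := by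
        refine sum_le_sum fun c _ => ?_
        rw [hw, ho]
        omega
    _ = ∑ c ∈ I, (cycO (L.get c) + 1 - cycW (L.get c)) + ∑ c ∈ I, w c := sum_add_distrib
    _ ≤ n + ∑ c ∈ I, w c := by
        refine Nat.add_le_add_right (le_trans (sum_le_sum_of_subset (subset_univ I)) h) _

theorem exists_noPeel : ∃ M, NoPeel 15997 48000 M 1000000000 := by
  refine ⟨100000001, ?_⟩
  intro S L T rem hS hL hT hT0 hrem hno
  obtain ⟨E, hE, hn, hw, ho, hne, hns, hfw, hsame, hlo⟩ := exists_kdat hS hL hT hrem hno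
  obtain ⟨I, N', U, h1, h2, h3, h4⟩ := core E hE (q := 100000000) (by norm_num) (by norm_num)
    hne hns hfw hsame hlo
  have hS' := sfree_rem hS hL hrem
  have hL' := minCover_rem hL hrem
  have hT' : IsSuperstring rem.flatten T := fun s hs =>
    hT s (hL.perm.mem_iff.1 ((sublist_flatten hrem).subset hs))
  have hAr := wordsA_of rauzyBound placeLemma _ _ _ hS' hL' hT'
  have hAL := wordsA_of rauzyBound placeLemma _ _ _ hS hL hT
  have hWr := wordsW _ _ _ hS' hL' hT'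
  have hWL := wordsW _ _ _ hS hL hT
  have eW : sW rem = ∑ c ∈ I, E.w c + ∑ c ∈ Iᶜ, E.w c := by
    rw [sum_add_sum_compl, sW, ← sum_get_eq]
    exact sum_congr rfl fun c _ => (hw c).symm
  have eO : sO rem = ∑ c ∈ I, E.o c + ∑ c ∈ Iᶜ, E.o c := by
    rw [sum_add_sum_compl, sO, ← sum_get_eq]
    exact sum_congr rfl fun c _ => (ho c).symm
  have eW2 : ∑ c, E.w c = sW rem := by rw [eW, sum_add_sum_compl]
  have e5 : 4 * ∑ c ∈ Iᶜ, E.o c ≤ 3 * ∑ c ∈ Iᶜ, E.w c +
      4 * ∑ c ∈ Iᶜ.filter (fun c => 3 * E.w c ≤ 4 * E.o c), E.o c := by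
    rw [sum_filter, mul_sum, mul_sum, mul_sum, ← sum_add_distrib]
    refine sum_le_sum fun c _ => ?_
    split_ifs <;> omega
  have h8 := lin_core T.length (∑ c ∈ I, E.w c) (∑ c ∈ Iᶜ, E.w c) (∑ c ∈ I, E.o c)
    (∑ c ∈ Iᶜ, E.o c) (∑ c ∈ Iᶜ.filter (fun c => 3 * E.w c ≤ 4 * E.o c), E.o c) N' U
    (by rw [eW2, hn, eW] at h1; exact h1) h2 h3 h4 e5 (sum_o_le hAr E.w E.o hw ho I)
    (by rw [← eW]; exact hWr)
  rw [← eW, ← eO] at h8
  have h9 : sO rem ≤ T.length + sW rem := by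
    rw [eW, eO, ← hn, sum_add_sum_compl, sum_add_sum_compl, hn]
    exact sum_o_le hAr E.w E.o hw ho univ
  have h10 : sO L ≤ T.length + sW L := by
    have := sum_o_le hAL (fun c => cycW (L.get c)) (fun c => cycO (L.get c)) (fun _ => rfl)
      (fun _ => rfl) univ
    rwa [sum_get_eq, sum_get_eq] at this
  exact lin_final T.length (sW L) (sO L) (sW rem) (sO rem) h8 h9 hWL h10

end Vale.Agent.P333.K
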