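import Mathlib

/-!
# P333, ratio below `7/3`, short proof: the greedy choice of classes with disjoint marks
-/

set_option linter.all false

namespace Vale.Agent.P333.K

open Finset

/-- **Greedy choice.** Every class `p ∈ P` has two marks `[a p e, b p e)`, `e : Bool`, the mark `e`
lies in the segment `g p e`; the marks have length at most `4 w p`; the classes which have a mark in
a set `Q` of marks of one segment satisfy `N Σ o ≤ D |⋃ Q|`. -/
theorem vitali {ι : Type} [DecidableEq ι] (P : Finset ι) (w o : ι → ℕ) (g a b : ι → Bool → ℕ)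
    (N D : ℕ) (hlen : ∀ p ∈ P, ∀ e, a p e < b p e ∧ b p e ≤ a p e + 4 * w p)
    (hno : ∀ (Q : Finset (ι × Bool)) (c : ℕ), (∀ x ∈ Q, x.1 ∈ P ∧ g x.1 x.2 = c) →
      N * ∑ p ∈ Q.image Prod.fst, o p ≤
        D * (Q.biUnion fun x => Ico (a x.1 x.2) (b x.1 x.2)).card) :
    ∃ F ⊆ P, (∀ p ∈ F, ∀ q ∈ F, p ≠ q → ∀ e e', g p e = g q e' →
        b p e ≤ a q e' ∨ b q e' ≤ a p e) ∧
      N * ∑ p ∈ P, o p ≤ 24 * D * ∑ q ∈ F, w q := by
  induction P using Finset.strongInduction with
  | H P ih =>
    rcases P.eq_empty_or_nonempty with h0 | hne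
    · subst h0
      exact ⟨∅, by simp, by simp, by simp⟩
    obtain ⟨q, hq, hmax⟩ := exists_max_image P w hne
    -- the classes which meet `q`
    let meets : ι → Bool → Bool → Prop := fun p e e' =>
      g p e = g q e' ∧ a p e < b q e' ∧ a q e' < b p e
    let bad : ι → Prop := fun p => ∃ e e', meets p e e'
    classical
    have hqbad : bad q := ⟨true, true, rfl, (hlen q hq true).1, (hlen q hq true).1⟩
    have hssub : P.filter (fun p => ¬ bad p) ⊂ P := by
      refine (filter_subset _ _).ssubset_of_ne fun h => ?_
      have : q ∈ P.filter (fun p => ¬ bad p) := by rw [h]; exact hq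
      exact (mem_filter.1 this).2 hqbad
    obtain ⟨F, hF, hdis, hsum⟩ := ih (P.filter fun p => ¬ bad p) hssub
      (fun p hp => hlen p (mem_filter.1 hp).1)
      (fun Q c hQ => hno Q c fun x hx => ⟨(mem_filter.1 (hQ x hx).1).1, (hQ x hx).2⟩)
    have hqF : q ∉ F := fun h => (mem_filter.1 (hF h)).2 hqbad
    -- the bound for the classes which meet the mark `e'` of `q`
    have hb : ∀ e', N * ∑ p ∈ P.filter (fun p => ∃ e, meets p e e'), o p ≤ 12 * D * w q := by
      intro e'
      let Q : Finset (ι × Bool) := (P ×ˢ (univ : Finset Bool)).filter fun x => meets x.1 x.2 e'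
      have h1 := hno Q (g q e') (fun x hx => by
        have := mem_filter.1 hx
        exact ⟨(mem_product.1 this.1).1, this.2.1⟩)
      have h2 : Q.image Prod.fst = P.filter (fun p => ∃ e, meets p e e') := by
        ext p
        simp only [Q, mem_image, mem_filter, mem_product, mem_univ, and_true, Prod.exists]
        constructor
        · rintro ⟨p', e, ⟨h3, h4⟩, rfl⟩
          exact ⟨h3, e, h4⟩
        · rintro ⟨h3, e, h4⟩
          exact ⟨p, e, ⟨h3, h4⟩, rfl⟩
      have h3 : (Q.biUnion fun x => Ico (a x.1 x.2) (b x.1 x.2)).card ≤ 12 * w q := by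
        have h4 := hlen q hq e'
        refine (card_le_card (t := Ico (a q e' - 4 * w q) (b q e' + 4 * w q)) ?_).trans ?_
        · rw [biUnion_subset]
          rintro ⟨p, e⟩ hx t ht
          have h5 := mem_filter.1 hx
          have h6 := (mem_product.1 h5.1).1
          have h7 := hlen p h6 e
          have h8 := hmax p h6
          obtain ⟨-, h9, h10⟩ := h5.2
          dsimp only at ht h9 h10 h7
          rw [mem_Ico] at ht ⊢
          omega
        · rw [Nat.card_Ico]
          omega
      rw [h2] at h1
      calc _ ≤ _ := h1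
        _ ≤ D * (12 * w q) := Nat.mul_le_mul_left _ h3
        _ = _ := by ring
    refine ⟨insert q F, ?_, ?_, ?_⟩
    · rw [insert_subset_iff]
      exact ⟨hq, hF.trans (filter_subset _ _)⟩
    · have key : ∀ p ∈ F, ∀ e e', g p e = g q e' → b p e ≤ a q e' ∨ b q e' ≤ a p e := by
        intro p hp e e' hg
        by_contra hcon
        push Not at hcon
        exact (mem_filter.1 (hF hp)).2 ⟨e, e', hg, hcon.2, hcon.1⟩
      intro p hp r hr hne e e' hg
      rw [mem_insert] at hp hr
      rcases hp with rfl | hp
      · rcases hr with rfl | hr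
        · exact absurd rfl hne
        · exact (key r hr e' e hg.symm).symm
      · rcases hr with rfl | hr
        · exact key p hp e e' hg
        · exact hdis p hp r hr hne e e' hg
    · rw [sum_insert hqF]
      have h1 : ∑ p ∈ P, o p ≤ ∑ p ∈ P.filter (fun p => ¬ bad p), o p +
          (∑ p ∈ P.filter (fun p => ∃ e, meets p e true), o p +
            ∑ p ∈ P.filter (fun p => ∃ e, meets p e false), o p) := by
        rw [← sum_filter_add_sum_filter_not P bad o, add_comm]
        refine Nat.add_le_add_left ?_ _
        refine le_trans ?_ (sum_union_inter (s₁ := P.filter (fun p => ∃ e, meets p e true))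
          (s₂ := P.filter (fun p => ∃ e, meets p e false)) (f := o) ▸ Nat.le_add_right _ _)
        refine sum_le_sum_of_subset ?_
        intro p hp
        obtain ⟨h2, e, e', h3⟩ := mem_filter.1 hp
        rw [mem_union, mem_filter, mem_filter]
        cases e' with
        | true => exact Or.inl ⟨h2, e, h3⟩
        | false => exact Or.inr ⟨h2, e, h3⟩
      have h2 := Nat.mul_le_mul_left N h1
      rw [mul_add, mul_add] at h2
      have h3 := hb true
      have h4 := hb false
      have h5 : 24 * D * (w q + ∑ x ∈ F, w x) =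
        12 * D * w q + 12 * D * w q + 24 * D * ∑ x ∈ F, w x := by ring
      omega

end Vale.Agent.P333.K
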